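import Vale.Agent.Snaky.P1.Tbl


namespace Vale.Agent.Snaky.P1

theorem ck0 : checkRange tbl 0 23 = 0 := by decide +kernel
theorem ck1 : checkRange tbl 23 18 = 0 := by decide +kernel
theorem ck2 : checkRange tbl 41 15 = 0 := by decide +kernel
theorem ck3 : checkRange tbl 56 19 = 0 := by decide +kernel
theorem ck4 : checkRange tbl 75 20 = 0 := by decide +kernel
theorem ck5 : checkRange tbl 95 21 = 0 := by decide +kernel
theorem ck6 : checkRange tbl 116 15 = 0 := by decide +kernel
theorem ck7 : checkRange tbl 131 9 = 0 := by decide +kernel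
theorem ck8 : checkRange tbl 140 17 = 0 := by decide +kernel
theorem ck9 : checkRange tbl 157 18 = 0 := by decide +kernel
theorem ck10 : checkRange tbl 175 19 = 0 := by decide +kernel
theorem ck11 : checkRange tbl 194 17 = 0 := by decide +kernel
theorem ck12 : checkRange tbl 211 16 = 0 := by decide +kernel
theorem ck13 : checkRange tbl 227 13 = 0 := by decide +kernel
theorem ck14 : checkRange tbl 240 15 = 0 := by decide +kernel
theorem ck15 : checkRange tbl 255 15 = 0 := by decide +kernel
theorem ck16 : checkRange tbl 270 17 = 0 := by decide +kernel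
theorem ck17 : checkRange tbl 287 10 = 0 := by decide +kernel
theorem ck18 : checkRange tbl 297 14 = 0 := by decide +kernel
theorem ck19 : checkRange tbl 311 17 = 0 := by decide +kernel
theorem ck20 : checkRange tbl 328 13 = 0 := by decide +kernel
theorem ck21 : checkRange tbl 341 14 = 0 := by decide +kernel
theorem ck22 : checkRange tbl 355 14 = 0 := by decide +kernel
theorem ck23 : checkRange tbl 369 17 = 0 := by decide +kernel
theorem ck24 : checkRange tbl 386 17 = 0 := by decide +kernel
theorem ck25 : checkRange tbl 403 17 = 0 := by decide +kernel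
theorem ck26 : checkRange tbl 420 14 = 0 := by decide +kernel
theorem ck27 : checkRange tbl 434 18 = 0 := by decide +kernel
theorem ck28 : checkRange tbl 452 18 = 0 := by decide +kernel
theorem ck29 : checkRange tbl 470 19 = 0 := by decide +kernel
theorem ck30 : checkRange tbl 489 17 = 0 := by decide +kernel
theorem ck31 : checkRange tbl 506 16 = 0 := by decide +kernel
theorem ck32 : checkRange tbl 522 17 = 0 := by decide +kernel
theorem ck33 : checkRange tbl 539 18 = 0 := by decide +kernel
theorem ck34 : checkRange tbl 557 15 = 0 := by decide +kernel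
theorem ck35 : checkRange tbl 572 6 = 0 := by decide +kernel
theorem ck36 : checkRange tbl 578 11 = 0 := by decide +kernel
theorem ck37 : checkRange tbl 589 16 = 0 := by decide +kernel
theorem ck38 : checkRange tbl 605 17 = 0 := by decide +kernel
theorem ck39 : checkRange tbl 622 9 = 0 := by decide +kernel
theorem ck40 : checkRange tbl 631 11 = 0 := by decide +kernel
theorem ck41 : checkRange tbl 642 9 = 0 := by decide +kernel
theorem ck42 : checkRange tbl 651 15 = 0 := by decide +kernel
theorem ck43 : checkRange tbl 666 10 = 0 := by decide +kernel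
theorem ck44 : checkRange tbl 676 11 = 0 := by decide +kernel
theorem ck45 : checkRange tbl 687 16 = 0 := by decide +kernel
theorem ck46 : checkRange tbl 703 17 = 0 := by decide +kernel
theorem ck47 : checkRange tbl 720 18 = 0 := by decide +kernel
theorem ck48 : checkRange tbl 738 14 = 0 := by decide +kernel
theorem ck49 : checkRange tbl 752 10 = 0 := by decide +kernel
theorem ck50 : checkRange tbl 762 15 = 0 := by decide +kernel
theorem ck51 : checkRange tbl 777 12 = 0 := by decide +kernel
theorem ck52 : checkRange tbl 789 11 = 0 := by decide +kernel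
theorem ck53 : checkRange tbl 800 16 = 0 := by decide +kernel
theorem ck54 : checkRange tbl 816 14 = 0 := by decide +kernel
theorem ck55 : checkRange tbl 830 15 = 0 := by decide +kernel
theorem ck56 : checkRange tbl 845 16 = 0 := by decide +kernel
theorem ck57 : checkRange tbl 861 18 = 0 := by decide +kernel
theorem ck58 : checkRange tbl 879 12 = 0 := by decide +kernel
theorem ck59 : checkRange tbl 891 14 = 0 := by decide +kernel
theorem ck60 : checkRange tbl 905 6 = 0 := by decide +kernel
theorem ck61 : checkRange tbl 911 10 = 0 := by decide +kernel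
theorem ck62 : checkRange tbl 921 17 = 0 := by decide +kernel
theorem ck63 : checkRange tbl 938 14 = 0 := by decide +kernel

theorem rng0 : RangeOK tbl 0 952 := RangeOK.join (RangeOK.join (RangeOK.join (RangeOK.join (RangeOK.join (RangeOK.join (RangeOK.of_check ck0) (RangeOK.of_check ck1) (Eq.refl 23)) (RangeOK.join (RangeOK.of_check ck2) (RangeOK.of_check ck3) (Eq.refl 56)) (Eq.refl 41)) (RangeOK.join (RangeOK.join (RangeOK.of_check ck4) (RangeOK.of_check ck5) (Eq.refl 95)) (RangeOK.join (RangeOK.of_check ck6) (RangeOK.of_check ck7) (Eq.refl 131)) (Eq.refl 116)) (Eq.refl 75)) (RangeOK.join (RangeOK.join (RangeOK.join (RangeOK.of_check ck8) (RangeOK.of_check ck9) (Eq.refl 157)) (RangeOK.join (RangeOK.of_check ck10) (RangeOK.of_check ck11) (Eq.refl 194)) (Eq.refl 175)) (RangeOK.join (RangeOK.join (RangeOK.of_check ck12) (RangeOK.of_check ck13) (Eq.refl 227)) (RangeOK.join (RangeOK.of_check ck14) (RangeOK.of_check ck15) (Eq.refl 255)) (Eq.refl 240)) (Eq.refl 211)) (Eq.refl 140)) (RangeOK.join (RangeOK.join (RangeOK.join (RangeOK.join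 (RangeOK.of_check ck16) (RangeOK.of_check ck17) (Eq.refl 287)) (RangeOK.join (RangeOK.of_check ck18) (RangeOK.of_check ck19) (Eq.refl 311)) (Eq.refl 297)) (RangeOK.join (RangeOK.join (RangeOK.of_check ck20) (RangeOK.of_check ck21) (Eq.refl 341)) (RangeOK.join (RangeOK.of_check ck22) (RangeOK.of_check ck23) (Eq.refl 369)) (Eq.refl 355)) (Eq.refl 328)) (RangeOK.join (RangeOK.join (RangeOK.join (RangeOK.of_check ck24) (RangeOK.of_check ck25) (Eq.refl 403)) (RangeOK.join (RangeOK.of_check ck26) (RangeOK.of_check ck27) (Eq.refl 434)) (Eq.refl 420)) (RangeOK.join (RangeOK.join (RangeOK.of_check ck28) (RangeOK.of_check ck29) (Eq.refl 470)) (RangeOK.join (RangeOK.of_check ck30) (RangeOK.of_check ck31) (Eq.refl 506)) (Eq.refl 489)) (Eq.refl 452)) (Eq.refl 386)) (Eq.refl 270)) (RangeOK.join (RangeOK.join (RangeOK.join (RangeOK.join (RangeOK.join (RangeOK.of_check ck32) (RangeOK.of_check ck33) (Eq.refl 539)) (RangeOK.join (RangeOK.of_check ck34) (RangeOK.of_check ck35) (Eq.refl 572)) (Eq.refl 557)) (RangeOK.join (RangeOK.join (RangeOK.of_check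 ck36) (RangeOK.of_check ck37) (Eq.refl 589)) (RangeOK.join (RangeOK.of_check ck38) (RangeOK.of_check ck39) (Eq.refl 622)) (Eq.refl 605)) (Eq.refl 578)) (RangeOK.join (RangeOK.join (RangeOK.join (RangeOK.of_check ck40) (RangeOK.of_check ck41) (Eq.refl 642)) (RangeOK.join (RangeOK.of_check ck42) (RangeOK.of_check ck43) (Eq.refl 666)) (Eq.refl 651)) (RangeOK.join (RangeOK.join (RangeOK.of_check ck44) (RangeOK.of_check ck45) (Eq.refl 687)) (RangeOK.join (RangeOK.of_check ck46) (RangeOK.of_check ck47) (Eq.refl 720)) (Eq.refl 703)) (Eq.refl 676)) (Eq.refl 631)) (RangeOK.join (RangeOK.join (RangeOK.join (RangeOK.join (RangeOK.of_check ck48) (RangeOK.of_check ck49) (Eq.refl 752)) (RangeOK.join (RangeOK.of_check ck50) (RangeOK.of_check ck51) (Eq.refl 777)) (Eq.refl 762)) (RangeOK.join (RangeOK.join (RangeOK.of_check ck52) (RangeOK.of_check ck53) (Eq.refl 800)) (RangeOK.join (RangeOK.of_check ck54) (RangeOK.of_check ck55) (Eq.refl 830)) (Eq.refl 816)) (Eq.refl 789)) (RangeOK.join (RangeOK.join (RangeOK.join (RangeOK.of_check ck56) (RangeOK.of_check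 ck57) (Eq.refl 861)) (RangeOK.join (RangeOK.of_check ck58) (RangeOK.of_check ck59) (Eq.refl 891)) (Eq.refl 879)) (RangeOK.join (RangeOK.join (RangeOK.of_check ck60) (RangeOK.of_check ck61) (Eq.refl 911)) (RangeOK.join (RangeOK.of_check ck62) (RangeOK.of_check ck63) (Eq.refl 938)) (Eq.refl 921)) (Eq.refl 905)) (Eq.refl 845)) (Eq.refl 738)) (Eq.refl 522)

end Vale.Agent.Snaky.P1
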