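import Vale.Agent.Snaky.P1.Tbl


namespace Vale.Agent.Snaky.P1

theorem ck64 : checkRange tbl 952 16 = 0 := by decide +kernel
theorem ck65 : checkRange tbl 968 13 = 0 := by decide +kernel
theorem ck66 : checkRange tbl 981 18 = 0 := by decide +kernel
theorem ck67 : checkRange tbl 999 19 = 0 := by decide +kernel
theorem ck68 : checkRange tbl 1018 17 = 0 := by decide +kernel
theorem ck69 : checkRange tbl 1035 16 = 0 := by decide +kernel
theorem ck70 : checkRange tbl 1051 15 = 0 := by decide +kernel
theorem ck71 : checkRange tbl 1066 18 = 0 := by decide +kernel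
theorem ck72 : checkRange tbl 1084 11 = 0 := by decide +kernel
theorem ck73 : checkRange tbl 1095 13 = 0 := by decide +kernel
theorem ck74 : checkRange tbl 1108 17 = 0 := by decide +kernel
theorem ck75 : checkRange tbl 1125 13 = 0 := by decide +kernel
theorem ck76 : checkRange tbl 1138 13 = 0 := by decide +kernel
theorem ck77 : checkRange tbl 1151 15 = 0 := by decide +kernel
theorem ck78 : checkRange tbl 1166 13 = 0 := by decide +kernel
theorem ck79 : checkRange tbl 1179 17 = 0 := by decide +kernel
theorem ck80 : checkRange tbl 1196 13 = 0 := by decide +kernel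
theorem ck81 : checkRange tbl 1209 8 = 0 := by decide +kernel
theorem ck82 : checkRange tbl 1217 9 = 0 := by decide +kernel
theorem ck83 : checkRange tbl 1226 5 = 0 := by decide +kernel
theorem ck84 : checkRange tbl 1231 18 = 0 := by decide +kernel
theorem ck85 : checkRange tbl 1249 18 = 0 := by decide +kernel
theorem ck86 : checkRange tbl 1267 13 = 0 := by decide +kernel
theorem ck87 : checkRange tbl 1280 17 = 0 := by decide +kernel
theorem ck88 : checkRange tbl 1297 14 = 0 := by decide +kernel
theorem ck89 : checkRange tbl 1311 17 = 0 := by decide +kernel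
theorem ck90 : checkRange tbl 1328 12 = 0 := by decide +kernel
theorem ck91 : checkRange tbl 1340 16 = 0 := by decide +kernel
theorem ck92 : checkRange tbl 1356 17 = 0 := by decide +kernel
theorem ck93 : checkRange tbl 1373 9 = 0 := by decide +kernel
theorem ck94 : checkRange tbl 1382 15 = 0 := by decide +kernel
theorem ck95 : checkRange tbl 1397 14 = 0 := by decide +kernel
theorem ck96 : checkRange tbl 1411 16 = 0 := by decide +kernel
theorem ck97 : checkRange tbl 1427 12 = 0 := by decide +kernel
theorem ck98 : checkRange tbl 1439 18 = 0 := by decide +kernel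
theorem ck99 : checkRange tbl 1457 18 = 0 := by decide +kernel
theorem ck100 : checkRange tbl 1475 18 = 0 := by decide +kernel
theorem ck101 : checkRange tbl 1493 17 = 0 := by decide +kernel
theorem ck102 : checkRange tbl 1510 14 = 0 := by decide +kernel
theorem ck103 : checkRange tbl 1524 13 = 0 := by decide +kernel
theorem ck104 : checkRange tbl 1537 16 = 0 := by decide +kernel
theorem ck105 : checkRange tbl 1553 9 = 0 := by decide +kernel
theorem ck106 : checkRange tbl 1562 17 = 0 := by decide +kernel
theorem ck107 : checkRange tbl 1579 17 = 0 := by decide +kernel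
theorem ck108 : checkRange tbl 1596 17 = 0 := by decide +kernel
theorem ck109 : checkRange tbl 1613 16 = 0 := by decide +kernel
theorem ck110 : checkRange tbl 1629 13 = 0 := by decide +kernel
theorem ck111 : checkRange tbl 1642 9 = 0 := by decide +kernel
theorem ck112 : checkRange tbl 1651 11 = 0 := by decide +kernel
theorem ck113 : checkRange tbl 1662 5 = 0 := by decide +kernel
theorem ck114 : checkRange tbl 1667 15 = 0 := by decide +kernel
theorem ck115 : checkRange tbl 1682 15 = 0 := by decide +kernel
theorem ck116 : checkRange tbl 1697 11 = 0 := by decide +kernel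
theorem ck117 : checkRange tbl 1708 6 = 0 := by decide +kernel
theorem ck118 : checkRange tbl 1714 9 = 0 := by decide +kernel
theorem ck119 : checkRange tbl 1723 10 = 0 := by decide +kernel
theorem ck120 : checkRange tbl 1733 9 = 0 := by decide +kernel
theorem ck121 : checkRange tbl 1742 15 = 0 := by decide +kernel
theorem ck122 : checkRange tbl 1757 13 = 0 := by decide +kernel
theorem ck123 : checkRange tbl 1770 17 = 0 := by decide +kernel
theorem ck124 : checkRange tbl 1787 11 = 0 := by decide +kernel
theorem ck125 : checkRange tbl 1798 14 = 0 := by decide +kernel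
theorem ck126 : checkRange tbl 1812 16 = 0 := by decide +kernel
theorem ck127 : checkRange tbl 1828 17 = 0 := by decide +kernel

theorem rng1 : RangeOK tbl 952 893 := RangeOK.join (RangeOK.join (RangeOK.join (RangeOK.join (RangeOK.join (RangeOK.join (RangeOK.of_check ck64) (RangeOK.of_check ck65) (Eq.refl 968)) (RangeOK.join (RangeOK.of_check ck66) (RangeOK.of_check ck67) (Eq.refl 999)) (Eq.refl 981)) (RangeOK.join (RangeOK.join (RangeOK.of_check ck68) (RangeOK.of_check ck69) (Eq.refl 1035)) (RangeOK.join (RangeOK.of_check ck70) (RangeOK.of_check ck71) (Eq.refl 1066)) (Eq.refl 1051)) (Eq.refl 1018)) (RangeOK.join (RangeOK.join (RangeOK.join (RangeOK.of_check ck72) (RangeOK.of_check ck73) (Eq.refl 1095)) (RangeOK.join (RangeOK.of_check ck74) (RangeOK.of_check ck75) (Eq.refl 1125)) (Eq.refl 1108)) (RangeOK.join (RangeOK.join (RangeOK.of_check ck76) (RangeOK.of_check ck77) (Eq.refl 1151)) (RangeOK.join (RangeOK.of_check ck78) (RangeOK.of_check ck79) (Eq.refl 1179)) (Eq.refl 1166)) (Eq.refl 1138)) (Eq.refl 1084)) (RangeOK.join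 (RangeOK.join (RangeOK.join (RangeOK.join (RangeOK.of_check ck80) (RangeOK.of_check ck81) (Eq.refl 1209)) (RangeOK.join (RangeOK.of_check ck82) (RangeOK.of_check ck83) (Eq.refl 1226)) (Eq.refl 1217)) (RangeOK.join (RangeOK.join (RangeOK.of_check ck84) (RangeOK.of_check ck85) (Eq.refl 1249)) (RangeOK.join (RangeOK.of_check ck86) (RangeOK.of_check ck87) (Eq.refl 1280)) (Eq.refl 1267)) (Eq.refl 1231)) (RangeOK.join (RangeOK.join (RangeOK.join (RangeOK.of_check ck88) (RangeOK.of_check ck89) (Eq.refl 1311)) (RangeOK.join (RangeOK.of_check ck90) (RangeOK.of_check ck91) (Eq.refl 1340)) (Eq.refl 1328)) (RangeOK.join (RangeOK.join (RangeOK.of_check ck92) (RangeOK.of_check ck93) (Eq.refl 1373)) (RangeOK.join (RangeOK.of_check ck94) (RangeOK.of_check ck95) (Eq.refl 1397)) (Eq.refl 1382)) (Eq.refl 1356)) (Eq.refl 1297)) (Eq.refl 1196)) (RangeOK.join (RangeOK.join (RangeOK.join (RangeOK.join (RangeOK.join (RangeOK.of_check ck96) (RangeOK.of_check ck97) (Eq.refl 1427)) (RangeOK.join (RangeOK.of_check ck98) (RangeOK.of_check ck99) (Eq.refl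 1457)) (Eq.refl 1439)) (RangeOK.join (RangeOK.join (RangeOK.of_check ck100) (RangeOK.of_check ck101) (Eq.refl 1493)) (RangeOK.join (RangeOK.of_check ck102) (RangeOK.of_check ck103) (Eq.refl 1524)) (Eq.refl 1510)) (Eq.refl 1475)) (RangeOK.join (RangeOK.join (RangeOK.join (RangeOK.of_check ck104) (RangeOK.of_check ck105) (Eq.refl 1553)) (RangeOK.join (RangeOK.of_check ck106) (RangeOK.of_check ck107) (Eq.refl 1579)) (Eq.refl 1562)) (RangeOK.join (RangeOK.join (RangeOK.of_check ck108) (RangeOK.of_check ck109) (Eq.refl 1613)) (RangeOK.join (RangeOK.of_check ck110) (RangeOK.of_check ck111) (Eq.refl 1642)) (Eq.refl 1629)) (Eq.refl 1596)) (Eq.refl 1537)) (RangeOK.join (RangeOK.join (RangeOK.join (RangeOK.join (RangeOK.of_check ck112) (RangeOK.of_check ck113) (Eq.refl 1662)) (RangeOK.join (RangeOK.of_check ck114) (RangeOK.of_check ck115) (Eq.refl 1682)) (Eq.refl 1667)) (RangeOK.join (RangeOK.join (RangeOK.of_check ck116) (RangeOK.of_check ck117) (Eq.refl 1708)) (RangeOK.join (RangeOK.of_check ck118) (RangeOK.of_check ck119) (Eq.refl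 1723)) (Eq.refl 1714)) (Eq.refl 1697)) (RangeOK.join (RangeOK.join (RangeOK.join (RangeOK.of_check ck120) (RangeOK.of_check ck121) (Eq.refl 1742)) (RangeOK.join (RangeOK.of_check ck122) (RangeOK.of_check ck123) (Eq.refl 1770)) (Eq.refl 1757)) (RangeOK.join (RangeOK.join (RangeOK.of_check ck124) (RangeOK.of_check ck125) (Eq.refl 1798)) (RangeOK.join (RangeOK.of_check ck126) (RangeOK.of_check ck127) (Eq.refl 1828)) (Eq.refl 1812)) (Eq.refl 1787)) (Eq.refl 1733)) (Eq.refl 1651)) (Eq.refl 1411)

end Vale.Agent.Snaky.P1
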