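import Vale.Agent.Snaky.P1.Tbl


namespace Vale.Agent.Snaky.P1

theorem ck640 : checkRange tbl 8523 20 = 0 := by decide +kernel
theorem ck641 : checkRange tbl 8543 17 = 0 := by decide +kernel
theorem ck642 : checkRange tbl 8560 13 = 0 := by decide +kernel
theorem ck643 : checkRange tbl 8573 13 = 0 := by decide +kernel
theorem ck644 : checkRange tbl 8586 13 = 0 := by decide +kernel
theorem ck645 : checkRange tbl 8599 13 = 0 := by decide +kernel
theorem ck646 : checkRange tbl 8612 17 = 0 := by decide +kernel
theorem ck647 : checkRange tbl 8629 19 = 0 := by decide +kernel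
theorem ck648 : checkRange tbl 8648 17 = 0 := by decide +kernel
theorem ck649 : checkRange tbl 8665 13 = 0 := by decide +kernel
theorem ck650 : checkRange tbl 8678 16 = 0 := by decide +kernel
theorem ck651 : checkRange tbl 8694 16 = 0 := by decide +kernel
theorem ck652 : checkRange tbl 8710 12 = 0 := by decide +kernel
theorem ck653 : checkRange tbl 8722 3 = 0 := by decide +kernel
theorem ck654 : checkRange tbl 8725 3 = 0 := by decide +kernel
theorem ck655 : checkRange tbl 8728 2 = 0 := by decide +kernel
theorem ck656 : checkRange tbl 8730 2 = 0 := by decide +kernel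
theorem ck657 : checkRange tbl 8732 5 = 0 := by decide +kernel
theorem ck658 : checkRange tbl 8737 11 = 0 := by decide +kernel
theorem ck659 : checkRange tbl 8748 7 = 0 := by decide +kernel
theorem ck660 : checkRange tbl 8755 8 = 0 := by decide +kernel
theorem ck661 : checkRange tbl 8763 3 = 0 := by decide +kernel
theorem ck662 : checkRange tbl 8766 4 = 0 := by decide +kernel
theorem ck663 : checkRange tbl 8770 4 = 0 := by decide +kernel
theorem ck664 : checkRange tbl 8774 6 = 0 := by decide +kernel
theorem ck665 : checkRange tbl 8780 17 = 0 := by decide +kernel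
theorem ck666 : checkRange tbl 8797 14 = 0 := by decide +kernel
theorem ck667 : checkRange tbl 8811 13 = 0 := by decide +kernel
theorem ck668 : checkRange tbl 8824 8 = 0 := by decide +kernel
theorem ck669 : checkRange tbl 8832 15 = 0 := by decide +kernel
theorem ck670 : checkRange tbl 8847 19 = 0 := by decide +kernel
theorem ck671 : checkRange tbl 8866 15 = 0 := by decide +kernel
theorem ck672 : checkRange tbl 8881 20 = 0 := by decide +kernel
theorem ck673 : checkRange tbl 8901 17 = 0 := by decide +kernel
theorem ck674 : checkRange tbl 8918 20 = 0 := by decide +kernel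
theorem ck675 : checkRange tbl 8938 17 = 0 := by decide +kernel
theorem ck676 : checkRange tbl 8955 18 = 0 := by decide +kernel
theorem ck677 : checkRange tbl 8973 22 = 0 := by decide +kernel
theorem ck678 : checkRange tbl 8995 17 = 0 := by decide +kernel
theorem ck679 : checkRange tbl 9012 19 = 0 := by decide +kernel
theorem ck680 : checkRange tbl 9031 20 = 0 := by decide +kernel
theorem ck681 : checkRange tbl 9051 21 = 0 := by decide +kernel
theorem ck682 : checkRange tbl 9072 18 = 0 := by decide +kernel
theorem ck683 : checkRange tbl 9090 19 = 0 := by decide +kernel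
theorem ck684 : checkRange tbl 9109 20 = 0 := by decide +kernel
theorem ck685 : checkRange tbl 9129 19 = 0 := by decide +kernel
theorem ck686 : checkRange tbl 9148 18 = 0 := by decide +kernel
theorem ck687 : checkRange tbl 9166 19 = 0 := by decide +kernel
theorem ck688 : checkRange tbl 9185 18 = 0 := by decide +kernel
theorem ck689 : checkRange tbl 9203 17 = 0 := by decide +kernel
theorem ck690 : checkRange tbl 9220 15 = 0 := by decide +kernel
theorem ck691 : checkRange tbl 9235 17 = 0 := by decide +kernel
theorem ck692 : checkRange tbl 9252 18 = 0 := by decide +kernel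
theorem ck693 : checkRange tbl 9270 19 = 0 := by decide +kernel
theorem ck694 : checkRange tbl 9289 20 = 0 := by decide +kernel
theorem ck695 : checkRange tbl 9309 20 = 0 := by decide +kernel
theorem ck696 : checkRange tbl 9329 20 = 0 := by decide +kernel
theorem ck697 : checkRange tbl 9349 20 = 0 := by decide +kernel
theorem ck698 : checkRange tbl 9369 20 = 0 := by decide +kernel
theorem ck699 : checkRange tbl 9389 21 = 0 := by decide +kernel
theorem ck700 : checkRange tbl 9410 18 = 0 := by decide +kernel
theorem ck701 : checkRange tbl 9428 21 = 0 := by decide +kernel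
theorem ck702 : checkRange tbl 9449 21 = 0 := by decide +kernel
theorem ck703 : checkRange tbl 9470 20 = 0 := by decide +kernel

theorem rng10 : RangeOK tbl 8523 967 := RangeOK.join (RangeOK.join (RangeOK.join (RangeOK.join (RangeOK.join (RangeOK.join (RangeOK.of_check ck640) (RangeOK.of_check ck641) (Eq.refl 8543)) (RangeOK.join (RangeOK.of_check ck642) (RangeOK.of_check ck643) (Eq.refl 8573)) (Eq.refl 8560)) (RangeOK.join (RangeOK.join (RangeOK.of_check ck644) (RangeOK.of_check ck645) (Eq.refl 8599)) (RangeOK.join (RangeOK.of_check ck646) (RangeOK.of_check ck647) (Eq.refl 8629)) (Eq.refl 8612)) (Eq.refl 8586)) (RangeOK.join (RangeOK.join (RangeOK.join (RangeOK.of_check ck648) (RangeOK.of_check ck649) (Eq.refl 8665)) (RangeOK.join (RangeOK.of_check ck650) (RangeOK.of_check ck651) (Eq.refl 8694)) (Eq.refl 8678)) (RangeOK.join (RangeOK.join (RangeOK.of_check ck652) (RangeOK.of_check ck653) (Eq.refl 8722)) (RangeOK.join (RangeOK.of_check ck654) (RangeOK.of_check ck655) (Eq.refl 8728)) (Eq.refl 8725)) (Eq.refl 8710)) (Eq.refl 8648)) (RangeOK.join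 (RangeOK.join (RangeOK.join (RangeOK.join (RangeOK.of_check ck656) (RangeOK.of_check ck657) (Eq.refl 8732)) (RangeOK.join (RangeOK.of_check ck658) (RangeOK.of_check ck659) (Eq.refl 8748)) (Eq.refl 8737)) (RangeOK.join (RangeOK.join (RangeOK.of_check ck660) (RangeOK.of_check ck661) (Eq.refl 8763)) (RangeOK.join (RangeOK.of_check ck662) (RangeOK.of_check ck663) (Eq.refl 8770)) (Eq.refl 8766)) (Eq.refl 8755)) (RangeOK.join (RangeOK.join (RangeOK.join (RangeOK.of_check ck664) (RangeOK.of_check ck665) (Eq.refl 8780)) (RangeOK.join (RangeOK.of_check ck666) (RangeOK.of_check ck667) (Eq.refl 8811)) (Eq.refl 8797)) (RangeOK.join (RangeOK.join (RangeOK.of_check ck668) (RangeOK.of_check ck669) (Eq.refl 8832)) (RangeOK.join (RangeOK.of_check ck670) (RangeOK.of_check ck671) (Eq.refl 8866)) (Eq.refl 8847)) (Eq.refl 8824)) (Eq.refl 8774)) (Eq.refl 8730)) (RangeOK.join (RangeOK.join (RangeOK.join (RangeOK.join (RangeOK.join (RangeOK.of_check ck672) (RangeOK.of_check ck673) (Eq.refl 8901)) (RangeOK.join (RangeOK.of_check ck674) (RangeOK.of_check ck675)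 (Eq.refl 8938)) (Eq.refl 8918)) (RangeOK.join (RangeOK.join (RangeOK.of_check ck676) (RangeOK.of_check ck677) (Eq.refl 8973)) (RangeOK.join (RangeOK.of_check ck678) (RangeOK.of_check ck679) (Eq.refl 9012)) (Eq.refl 8995)) (Eq.refl 8955)) (RangeOK.join (RangeOK.join (RangeOK.join (RangeOK.of_check ck680) (RangeOK.of_check ck681) (Eq.refl 9051)) (RangeOK.join (RangeOK.of_check ck682) (RangeOK.of_check ck683) (Eq.refl 9090)) (Eq.refl 9072)) (RangeOK.join (RangeOK.join (RangeOK.of_check ck684) (RangeOK.of_check ck685) (Eq.refl 9129)) (RangeOK.join (RangeOK.of_check ck686) (RangeOK.of_check ck687) (Eq.refl 9166)) (Eq.refl 9148)) (Eq.refl 9109)) (Eq.refl 9031)) (RangeOK.join (RangeOK.join (RangeOK.join (RangeOK.join (RangeOK.of_check ck688) (RangeOK.of_check ck689) (Eq.refl 9203)) (RangeOK.join (RangeOK.of_check ck690) (RangeOK.of_check ck691) (Eq.refl 9235)) (Eq.refl 9220)) (RangeOK.join (RangeOK.join (RangeOK.of_check ck692) (RangeOK.of_check ck693) (Eq.refl 9270)) (RangeOK.join (RangeOK.of_check ck694) (RangeOK.of_check ck695) (Eq.refl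 9309)) (Eq.refl 9289)) (Eq.refl 9252)) (RangeOK.join (RangeOK.join (RangeOK.join (RangeOK.of_check ck696) (RangeOK.of_check ck697) (Eq.refl 9349)) (RangeOK.join (RangeOK.of_check ck698) (RangeOK.of_check ck699) (Eq.refl 9389)) (Eq.refl 9369)) (RangeOK.join (RangeOK.join (RangeOK.of_check ck700) (RangeOK.of_check ck701) (Eq.refl 9428)) (RangeOK.join (RangeOK.of_check ck702) (RangeOK.of_check ck703) (Eq.refl 9470)) (Eq.refl 9449)) (Eq.refl 9410)) (Eq.refl 9329)) (Eq.refl 9185)) (Eq.refl 8881)

end Vale.Agent.Snaky.P1
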