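import Vale.Agent.Snaky.P1.Tbl


namespace Vale.Agent.Snaky.P1

theorem ck704 : checkRange tbl 9490 19 = 0 := by decide +kernel
theorem ck705 : checkRange tbl 9509 17 = 0 := by decide +kernel
theorem ck706 : checkRange tbl 9526 20 = 0 := by decide +kernel
theorem ck707 : checkRange tbl 9546 17 = 0 := by decide +kernel
theorem ck708 : checkRange tbl 9563 20 = 0 := by decide +kernel
theorem ck709 : checkRange tbl 9583 20 = 0 := by decide +kernel
theorem ck710 : checkRange tbl 9603 18 = 0 := by decide +kernel
theorem ck711 : checkRange tbl 9621 18 = 0 := by decide +kernel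
theorem ck712 : checkRange tbl 9639 20 = 0 := by decide +kernel
theorem ck713 : checkRange tbl 9659 18 = 0 := by decide +kernel
theorem ck714 : checkRange tbl 9677 19 = 0 := by decide +kernel
theorem ck715 : checkRange tbl 9696 19 = 0 := by decide +kernel
theorem ck716 : checkRange tbl 9715 18 = 0 := by decide +kernel
theorem ck717 : checkRange tbl 9733 15 = 0 := by decide +kernel
theorem ck718 : checkRange tbl 9748 18 = 0 := by decide +kernel
theorem ck719 : checkRange tbl 9766 20 = 0 := by decide +kernel
theorem ck720 : checkRange tbl 9786 20 = 0 := by decide +kernel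
theorem ck721 : checkRange tbl 9806 18 = 0 := by decide +kernel
theorem ck722 : checkRange tbl 9824 21 = 0 := by decide +kernel
theorem ck723 : checkRange tbl 9845 18 = 0 := by decide +kernel
theorem ck724 : checkRange tbl 9863 16 = 0 := by decide +kernel
theorem ck725 : checkRange tbl 9879 20 = 0 := by decide +kernel
theorem ck726 : checkRange tbl 9899 20 = 0 := by decide +kernel
theorem ck727 : checkRange tbl 9919 20 = 0 := by decide +kernel
theorem ck728 : checkRange tbl 9939 20 = 0 := by decide +kernel
theorem ck729 : checkRange tbl 9959 22 = 0 := by decide +kernel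
theorem ck730 : checkRange tbl 9981 20 = 0 := by decide +kernel
theorem ck731 : checkRange tbl 10001 21 = 0 := by decide +kernel
theorem ck732 : checkRange tbl 10022 17 = 0 := by decide +kernel
theorem ck733 : checkRange tbl 10039 17 = 0 := by decide +kernel
theorem ck734 : checkRange tbl 10056 19 = 0 := by decide +kernel
theorem ck735 : checkRange tbl 10075 20 = 0 := by decide +kernel
theorem ck736 : checkRange tbl 10095 20 = 0 := by decide +kernel
theorem ck737 : checkRange tbl 10115 20 = 0 := by decide +kernel
theorem ck738 : checkRange tbl 10135 21 = 0 := by decide +kernel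
theorem ck739 : checkRange tbl 10156 20 = 0 := by decide +kernel
theorem ck740 : checkRange tbl 10176 20 = 0 := by decide +kernel
theorem ck741 : checkRange tbl 10196 21 = 0 := by decide +kernel
theorem ck742 : checkRange tbl 10217 22 = 0 := by decide +kernel
theorem ck743 : checkRange tbl 10239 18 = 0 := by decide +kernel
theorem ck744 : checkRange tbl 10257 21 = 0 := by decide +kernel
theorem ck745 : checkRange tbl 10278 22 = 0 := by decide +kernel
theorem ck746 : checkRange tbl 10300 21 = 0 := by decide +kernel
theorem ck747 : checkRange tbl 10321 19 = 0 := by decide +kernel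
theorem ck748 : checkRange tbl 10340 18 = 0 := by decide +kernel
theorem ck749 : checkRange tbl 10358 21 = 0 := by decide +kernel
theorem ck750 : checkRange tbl 10379 20 = 0 := by decide +kernel
theorem ck751 : checkRange tbl 10399 19 = 0 := by decide +kernel
theorem ck752 : checkRange tbl 10418 15 = 0 := by decide +kernel
theorem ck753 : checkRange tbl 10433 20 = 0 := by decide +kernel
theorem ck754 : checkRange tbl 10453 18 = 0 := by decide +kernel
theorem ck755 : checkRange tbl 10471 20 = 0 := by decide +kernel
theorem ck756 : checkRange tbl 10491 22 = 0 := by decide +kernel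
theorem ck757 : checkRange tbl 10513 18 = 0 := by decide +kernel
theorem ck758 : checkRange tbl 10531 21 = 0 := by decide +kernel
theorem ck759 : checkRange tbl 10552 19 = 0 := by decide +kernel
theorem ck760 : checkRange tbl 10571 21 = 0 := by decide +kernel
theorem ck761 : checkRange tbl 10592 19 = 0 := by decide +kernel
theorem ck762 : checkRange tbl 10611 20 = 0 := by decide +kernel
theorem ck763 : checkRange tbl 10631 20 = 0 := by decide +kernel
theorem ck764 : checkRange tbl 10651 17 = 0 := by decide +kernel
theorem ck765 : checkRange tbl 10668 20 = 0 := by decide +kernel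
theorem ck766 : checkRange tbl 10688 21 = 0 := by decide +kernel
theorem ck767 : checkRange tbl 10709 18 = 0 := by decide +kernel

theorem rng11 : RangeOK tbl 9490 1237 := RangeOK.join (RangeOK.join (RangeOK.join (RangeOK.join (RangeOK.join (RangeOK.join (RangeOK.of_check ck704) (RangeOK.of_check ck705) (Eq.refl 9509)) (RangeOK.join (RangeOK.of_check ck706) (RangeOK.of_check ck707) (Eq.refl 9546)) (Eq.refl 9526)) (RangeOK.join (RangeOK.join (RangeOK.of_check ck708) (RangeOK.of_check ck709) (Eq.refl 9583)) (RangeOK.join (RangeOK.of_check ck710) (RangeOK.of_check ck711) (Eq.refl 9621)) (Eq.refl 9603)) (Eq.refl 9563)) (RangeOK.join (RangeOK.join (RangeOK.join (RangeOK.of_check ck712) (RangeOK.of_check ck713) (Eq.refl 9659)) (RangeOK.join (RangeOK.of_check ck714) (RangeOK.of_check ck715) (Eq.refl 9696)) (Eq.refl 9677)) (RangeOK.join (RangeOK.join (RangeOK.of_check ck716) (RangeOK.of_check ck717) (Eq.refl 9733)) (RangeOK.join (RangeOK.of_check ck718) (RangeOK.of_check ck719) (Eq.refl 9766)) (Eq.refl 9748)) (Eq.refl 9715)) (Eq.refl 9639)) (RangeOK.join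 (RangeOK.join (RangeOK.join (RangeOK.join (RangeOK.of_check ck720) (RangeOK.of_check ck721) (Eq.refl 9806)) (RangeOK.join (RangeOK.of_check ck722) (RangeOK.of_check ck723) (Eq.refl 9845)) (Eq.refl 9824)) (RangeOK.join (RangeOK.join (RangeOK.of_check ck724) (RangeOK.of_check ck725) (Eq.refl 9879)) (RangeOK.join (RangeOK.of_check ck726) (RangeOK.of_check ck727) (Eq.refl 9919)) (Eq.refl 9899)) (Eq.refl 9863)) (RangeOK.join (RangeOK.join (RangeOK.join (RangeOK.of_check ck728) (RangeOK.of_check ck729) (Eq.refl 9959)) (RangeOK.join (RangeOK.of_check ck730) (RangeOK.of_check ck731) (Eq.refl 10001)) (Eq.refl 9981)) (RangeOK.join (RangeOK.join (RangeOK.of_check ck732) (RangeOK.of_check ck733) (Eq.refl 10039)) (RangeOK.join (RangeOK.of_check ck734) (RangeOK.of_check ck735) (Eq.refl 10075)) (Eq.refl 10056)) (Eq.refl 10022)) (Eq.refl 9939)) (Eq.refl 9786)) (RangeOK.join (RangeOK.join (RangeOK.join (RangeOK.join (RangeOK.join (RangeOK.of_check ck736) (RangeOK.of_check ck737) (Eq.refl 10115)) (RangeOK.join (RangeOK.of_check ck738) (RangeOK.of_check ck739) (Eq.refl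 10156)) (Eq.refl 10135)) (RangeOK.join (RangeOK.join (RangeOK.of_check ck740) (RangeOK.of_check ck741) (Eq.refl 10196)) (RangeOK.join (RangeOK.of_check ck742) (RangeOK.of_check ck743) (Eq.refl 10239)) (Eq.refl 10217)) (Eq.refl 10176)) (RangeOK.join (RangeOK.join (RangeOK.join (RangeOK.of_check ck744) (RangeOK.of_check ck745) (Eq.refl 10278)) (RangeOK.join (RangeOK.of_check ck746) (RangeOK.of_check ck747) (Eq.refl 10321)) (Eq.refl 10300)) (RangeOK.join (RangeOK.join (RangeOK.of_check ck748) (RangeOK.of_check ck749) (Eq.refl 10358)) (RangeOK.join (RangeOK.of_check ck750) (RangeOK.of_check ck751) (Eq.refl 10399)) (Eq.refl 10379)) (Eq.refl 10340)) (Eq.refl 10257)) (RangeOK.join (RangeOK.join (RangeOK.join (RangeOK.join (RangeOK.of_check ck752) (RangeOK.of_check ck753) (Eq.refl 10433)) (RangeOK.join (RangeOK.of_check ck754) (RangeOK.of_check ck755) (Eq.refl 10471)) (Eq.refl 10453)) (RangeOK.join (RangeOK.join (RangeOK.of_check ck756) (RangeOK.of_check ck757) (Eq.refl 10513)) (RangeOK.join (RangeOK.of_check ck758) (RangeOK.of_check ck759) (Eq.refl 10552))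 (Eq.refl 10531)) (Eq.refl 10491)) (RangeOK.join (RangeOK.join (RangeOK.join (RangeOK.of_check ck760) (RangeOK.of_check ck761) (Eq.refl 10592)) (RangeOK.join (RangeOK.of_check ck762) (RangeOK.of_check ck763) (Eq.refl 10631)) (Eq.refl 10611)) (RangeOK.join (RangeOK.join (RangeOK.of_check ck764) (RangeOK.of_check ck765) (Eq.refl 10668)) (RangeOK.join (RangeOK.of_check ck766) (RangeOK.of_check ck767) (Eq.refl 10709)) (Eq.refl 10688)) (Eq.refl 10651)) (Eq.refl 10571)) (Eq.refl 10418)) (Eq.refl 10095)

end Vale.Agent.Snaky.P1
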