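import Vale.Agent.Snaky.P1.Tbl


namespace Vale.Agent.Snaky.P1

theorem ck128 : checkRange tbl 1845 15 = 0 := by decide +kernel
theorem ck129 : checkRange tbl 1860 13 = 0 := by decide +kernel
theorem ck130 : checkRange tbl 1873 6 = 0 := by decide +kernel
theorem ck131 : checkRange tbl 1879 7 = 0 := by decide +kernel
theorem ck132 : checkRange tbl 1886 15 = 0 := by decide +kernel
theorem ck133 : checkRange tbl 1901 11 = 0 := by decide +kernel
theorem ck134 : checkRange tbl 1912 6 = 0 := by decide +kernel
theorem ck135 : checkRange tbl 1918 9 = 0 := by decide +kernel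
theorem ck136 : checkRange tbl 1927 12 = 0 := by decide +kernel
theorem ck137 : checkRange tbl 1939 16 = 0 := by decide +kernel
theorem ck138 : checkRange tbl 1955 15 = 0 := by decide +kernel
theorem ck139 : checkRange tbl 1970 12 = 0 := by decide +kernel
theorem ck140 : checkRange tbl 1982 17 = 0 := by decide +kernel
theorem ck141 : checkRange tbl 1999 12 = 0 := by decide +kernel
theorem ck142 : checkRange tbl 2011 11 = 0 := by decide +kernel
theorem ck143 : checkRange tbl 2022 20 = 0 := by decide +kernel
theorem ck144 : checkRange tbl 2042 18 = 0 := by decide +kernel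
theorem ck145 : checkRange tbl 2060 17 = 0 := by decide +kernel
theorem ck146 : checkRange tbl 2077 20 = 0 := by decide +kernel
theorem ck147 : checkRange tbl 2097 19 = 0 := by decide +kernel
theorem ck148 : checkRange tbl 2116 17 = 0 := by decide +kernel
theorem ck149 : checkRange tbl 2133 16 = 0 := by decide +kernel
theorem ck150 : checkRange tbl 2149 18 = 0 := by decide +kernel
theorem ck151 : checkRange tbl 2167 16 = 0 := by decide +kernel
theorem ck152 : checkRange tbl 2183 16 = 0 := by decide +kernel
theorem ck153 : checkRange tbl 2199 18 = 0 := by decide +kernel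
theorem ck154 : checkRange tbl 2217 18 = 0 := by decide +kernel
theorem ck155 : checkRange tbl 2235 16 = 0 := by decide +kernel
theorem ck156 : checkRange tbl 2251 11 = 0 := by decide +kernel
theorem ck157 : checkRange tbl 2262 9 = 0 := by decide +kernel
theorem ck158 : checkRange tbl 2271 7 = 0 := by decide +kernel
theorem ck159 : checkRange tbl 2278 4 = 0 := by decide +kernel
theorem ck160 : checkRange tbl 2282 4 = 0 := by decide +kernel
theorem ck161 : checkRange tbl 2286 3 = 0 := by decide +kernel
theorem ck162 : checkRange tbl 2289 7 = 0 := by decide +kernel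
theorem ck163 : checkRange tbl 2296 10 = 0 := by decide +kernel
theorem ck164 : checkRange tbl 2306 10 = 0 := by decide +kernel
theorem ck165 : checkRange tbl 2316 9 = 0 := by decide +kernel
theorem ck166 : checkRange tbl 2325 12 = 0 := by decide +kernel
theorem ck167 : checkRange tbl 2337 14 = 0 := by decide +kernel
theorem ck168 : checkRange tbl 2351 13 = 0 := by decide +kernel
theorem ck169 : checkRange tbl 2364 12 = 0 := by decide +kernel
theorem ck170 : checkRange tbl 2376 14 = 0 := by decide +kernel
theorem ck171 : checkRange tbl 2390 5 = 0 := by decide +kernel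
theorem ck172 : checkRange tbl 2395 3 = 0 := by decide +kernel
theorem ck173 : checkRange tbl 2398 3 = 0 := by decide +kernel
theorem ck174 : checkRange tbl 2401 2 = 0 := by decide +kernel
theorem ck175 : checkRange tbl 2403 10 = 0 := by decide +kernel
theorem ck176 : checkRange tbl 2413 14 = 0 := by decide +kernel
theorem ck177 : checkRange tbl 2427 9 = 0 := by decide +kernel
theorem ck178 : checkRange tbl 2436 16 = 0 := by decide +kernel
theorem ck179 : checkRange tbl 2452 13 = 0 := by decide +kernel
theorem ck180 : checkRange tbl 2465 15 = 0 := by decide +kernel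
theorem ck181 : checkRange tbl 2480 6 = 0 := by decide +kernel
theorem ck182 : checkRange tbl 2486 6 = 0 := by decide +kernel
theorem ck183 : checkRange tbl 2492 6 = 0 := by decide +kernel
theorem ck184 : checkRange tbl 2498 14 = 0 := by decide +kernel
theorem ck185 : checkRange tbl 2512 8 = 0 := by decide +kernel
theorem ck186 : checkRange tbl 2520 16 = 0 := by decide +kernel
theorem ck187 : checkRange tbl 2536 16 = 0 := by decide +kernel
theorem ck188 : checkRange tbl 2552 17 = 0 := by decide +kernel
theorem ck189 : checkRange tbl 2569 19 = 0 := by decide +kernel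
theorem ck190 : checkRange tbl 2588 13 = 0 := by decide +kernel
theorem ck191 : checkRange tbl 2601 7 = 0 := by decide +kernel

theorem rng2 : RangeOK tbl 1845 763 := RangeOK.join (RangeOK.join (RangeOK.join (RangeOK.join (RangeOK.join (RangeOK.join (RangeOK.of_check ck128) (RangeOK.of_check ck129) (Eq.refl 1860)) (RangeOK.join (RangeOK.of_check ck130) (RangeOK.of_check ck131) (Eq.refl 1879)) (Eq.refl 1873)) (RangeOK.join (RangeOK.join (RangeOK.of_check ck132) (RangeOK.of_check ck133) (Eq.refl 1901)) (RangeOK.join (RangeOK.of_check ck134) (RangeOK.of_check ck135) (Eq.refl 1918)) (Eq.refl 1912)) (Eq.refl 1886)) (RangeOK.join (RangeOK.join (RangeOK.join (RangeOK.of_check ck136) (RangeOK.of_check ck137) (Eq.refl 1939)) (RangeOK.join (RangeOK.of_check ck138) (RangeOK.of_check ck139) (Eq.refl 1970)) (Eq.refl 1955)) (RangeOK.join (RangeOK.join (RangeOK.of_check ck140) (RangeOK.of_check ck141) (Eq.refl 1999)) (RangeOK.join (RangeOK.of_check ck142) (RangeOK.of_check ck143) (Eq.refl 2022)) (Eq.refl 2011)) (Eq.refl 1982)) (Eq.refl 1927)) (RangeOK.join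 (RangeOK.join (RangeOK.join (RangeOK.join (RangeOK.of_check ck144) (RangeOK.of_check ck145) (Eq.refl 2060)) (RangeOK.join (RangeOK.of_check ck146) (RangeOK.of_check ck147) (Eq.refl 2097)) (Eq.refl 2077)) (RangeOK.join (RangeOK.join (RangeOK.of_check ck148) (RangeOK.of_check ck149) (Eq.refl 2133)) (RangeOK.join (RangeOK.of_check ck150) (RangeOK.of_check ck151) (Eq.refl 2167)) (Eq.refl 2149)) (Eq.refl 2116)) (RangeOK.join (RangeOK.join (RangeOK.join (RangeOK.of_check ck152) (RangeOK.of_check ck153) (Eq.refl 2199)) (RangeOK.join (RangeOK.of_check ck154) (RangeOK.of_check ck155) (Eq.refl 2235)) (Eq.refl 2217)) (RangeOK.join (RangeOK.join (RangeOK.of_check ck156) (RangeOK.of_check ck157) (Eq.refl 2262)) (RangeOK.join (RangeOK.of_check ck158) (RangeOK.of_check ck159) (Eq.refl 2278)) (Eq.refl 2271)) (Eq.refl 2251)) (Eq.refl 2183)) (Eq.refl 2042)) (RangeOK.join (RangeOK.join (RangeOK.join (RangeOK.join (RangeOK.join (RangeOK.of_check ck160) (RangeOK.of_check ck161) (Eq.refl 2286)) (RangeOK.join (RangeOK.of_check ck162) (RangeOK.of_check ck163)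 (Eq.refl 2296)) (Eq.refl 2289)) (RangeOK.join (RangeOK.join (RangeOK.of_check ck164) (RangeOK.of_check ck165) (Eq.refl 2316)) (RangeOK.join (RangeOK.of_check ck166) (RangeOK.of_check ck167) (Eq.refl 2337)) (Eq.refl 2325)) (Eq.refl 2306)) (RangeOK.join (RangeOK.join (RangeOK.join (RangeOK.of_check ck168) (RangeOK.of_check ck169) (Eq.refl 2364)) (RangeOK.join (RangeOK.of_check ck170) (RangeOK.of_check ck171) (Eq.refl 2390)) (Eq.refl 2376)) (RangeOK.join (RangeOK.join (RangeOK.of_check ck172) (RangeOK.of_check ck173) (Eq.refl 2398)) (RangeOK.join (RangeOK.of_check ck174) (RangeOK.of_check ck175) (Eq.refl 2403)) (Eq.refl 2401)) (Eq.refl 2395)) (Eq.refl 2351)) (RangeOK.join (RangeOK.join (RangeOK.join (RangeOK.join (RangeOK.of_check ck176) (RangeOK.of_check ck177) (Eq.refl 2427)) (RangeOK.join (RangeOK.of_check ck178) (RangeOK.of_check ck179) (Eq.refl 2452)) (Eq.refl 2436)) (RangeOK.join (RangeOK.join (RangeOK.of_check ck180) (RangeOK.of_check ck181) (Eq.refl 2480)) (RangeOK.join (RangeOK.of_check ck182) (RangeOK.of_check ck183) (Eq.refl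 2492)) (Eq.refl 2486)) (Eq.refl 2465)) (RangeOK.join (RangeOK.join (RangeOK.join (RangeOK.of_check ck184) (RangeOK.of_check ck185) (Eq.refl 2512)) (RangeOK.join (RangeOK.of_check ck186) (RangeOK.of_check ck187) (Eq.refl 2536)) (Eq.refl 2520)) (RangeOK.join (RangeOK.join (RangeOK.of_check ck188) (RangeOK.of_check ck189) (Eq.refl 2569)) (RangeOK.join (RangeOK.of_check ck190) (RangeOK.of_check ck191) (Eq.refl 2601)) (Eq.refl 2588)) (Eq.refl 2552)) (Eq.refl 2498)) (Eq.refl 2413)) (Eq.refl 2282)

end Vale.Agent.Snaky.P1
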