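import Vale.Agent.Snaky.P1.Tbl


namespace Vale.Agent.Snaky.P1

theorem ck192 : checkRange tbl 2608 12 = 0 := by decide +kernel
theorem ck193 : checkRange tbl 2620 6 = 0 := by decide +kernel
theorem ck194 : checkRange tbl 2626 11 = 0 := by decide +kernel
theorem ck195 : checkRange tbl 2637 20 = 0 := by decide +kernel
theorem ck196 : checkRange tbl 2657 18 = 0 := by decide +kernel
theorem ck197 : checkRange tbl 2675 10 = 0 := by decide +kernel
theorem ck198 : checkRange tbl 2685 5 = 0 := by decide +kernel
theorem ck199 : checkRange tbl 2690 10 = 0 := by decide +kernel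
theorem ck200 : checkRange tbl 2700 14 = 0 := by decide +kernel
theorem ck201 : checkRange tbl 2714 11 = 0 := by decide +kernel
theorem ck202 : checkRange tbl 2725 6 = 0 := by decide +kernel
theorem ck203 : checkRange tbl 2731 8 = 0 := by decide +kernel
theorem ck204 : checkRange tbl 2739 10 = 0 := by decide +kernel
theorem ck205 : checkRange tbl 2749 5 = 0 := by decide +kernel
theorem ck206 : checkRange tbl 2754 11 = 0 := by decide +kernel
theorem ck207 : checkRange tbl 2765 5 = 0 := by decide +kernel
theorem ck208 : checkRange tbl 2770 9 = 0 := by decide +kernel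
theorem ck209 : checkRange tbl 2779 11 = 0 := by decide +kernel
theorem ck210 : checkRange tbl 2790 8 = 0 := by decide +kernel
theorem ck211 : checkRange tbl 2798 6 = 0 := by decide +kernel
theorem ck212 : checkRange tbl 2804 5 = 0 := by decide +kernel
theorem ck213 : checkRange tbl 2809 12 = 0 := by decide +kernel
theorem ck214 : checkRange tbl 2821 6 = 0 := by decide +kernel
theorem ck215 : checkRange tbl 2827 5 = 0 := by decide +kernel
theorem ck216 : checkRange tbl 2832 5 = 0 := by decide +kernel
theorem ck217 : checkRange tbl 2837 8 = 0 := by decide +kernel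
theorem ck218 : checkRange tbl 2845 9 = 0 := by decide +kernel
theorem ck219 : checkRange tbl 2854 19 = 0 := by decide +kernel
theorem ck220 : checkRange tbl 2873 12 = 0 := by decide +kernel
theorem ck221 : checkRange tbl 2885 9 = 0 := by decide +kernel
theorem ck222 : checkRange tbl 2894 19 = 0 := by decide +kernel
theorem ck223 : checkRange tbl 2913 8 = 0 := by decide +kernel
theorem ck224 : checkRange tbl 2921 5 = 0 := by decide +kernel
theorem ck225 : checkRange tbl 2926 4 = 0 := by decide +kernel
theorem ck226 : checkRange tbl 2930 21 = 0 := by decide +kernel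
theorem ck227 : checkRange tbl 2951 19 = 0 := by decide +kernel
theorem ck228 : checkRange tbl 2970 19 = 0 := by decide +kernel
theorem ck229 : checkRange tbl 2989 19 = 0 := by decide +kernel
theorem ck230 : checkRange tbl 3008 19 = 0 := by decide +kernel
theorem ck231 : checkRange tbl 3027 20 = 0 := by decide +kernel
theorem ck232 : checkRange tbl 3047 21 = 0 := by decide +kernel
theorem ck233 : checkRange tbl 3068 17 = 0 := by decide +kernel
theorem ck234 : checkRange tbl 3085 19 = 0 := by decide +kernel
theorem ck235 : checkRange tbl 3104 17 = 0 := by decide +kernel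
theorem ck236 : checkRange tbl 3121 15 = 0 := by decide +kernel
theorem ck237 : checkRange tbl 3136 15 = 0 := by decide +kernel
theorem ck238 : checkRange tbl 3151 21 = 0 := by decide +kernel
theorem ck239 : checkRange tbl 3172 17 = 0 := by decide +kernel
theorem ck240 : checkRange tbl 3189 20 = 0 := by decide +kernel
theorem ck241 : checkRange tbl 3209 12 = 0 := by decide +kernel
theorem ck242 : checkRange tbl 3221 10 = 0 := by decide +kernel
theorem ck243 : checkRange tbl 3231 16 = 0 := by decide +kernel
theorem ck244 : checkRange tbl 3247 15 = 0 := by decide +kernel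
theorem ck245 : checkRange tbl 3262 17 = 0 := by decide +kernel
theorem ck246 : checkRange tbl 3279 13 = 0 := by decide +kernel
theorem ck247 : checkRange tbl 3292 6 = 0 := by decide +kernel
theorem ck248 : checkRange tbl 3298 13 = 0 := by decide +kernel
theorem ck249 : checkRange tbl 3311 10 = 0 := by decide +kernel
theorem ck250 : checkRange tbl 3321 7 = 0 := by decide +kernel
theorem ck251 : checkRange tbl 3328 7 = 0 := by decide +kernel
theorem ck252 : checkRange tbl 3335 8 = 0 := by decide +kernel
theorem ck253 : checkRange tbl 3343 4 = 0 := by decide +kernel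
theorem ck254 : checkRange tbl 3347 11 = 0 := by decide +kernel
theorem ck255 : checkRange tbl 3358 5 = 0 := by decide +kernel

theorem rng3 : RangeOK tbl 2608 755 := RangeOK.join (RangeOK.join (RangeOK.join (RangeOK.join (RangeOK.join (RangeOK.join (RangeOK.of_check ck192) (RangeOK.of_check ck193) (Eq.refl 2620)) (RangeOK.join (RangeOK.of_check ck194) (RangeOK.of_check ck195) (Eq.refl 2637)) (Eq.refl 2626)) (RangeOK.join (RangeOK.join (RangeOK.of_check ck196) (RangeOK.of_check ck197) (Eq.refl 2675)) (RangeOK.join (RangeOK.of_check ck198) (RangeOK.of_check ck199) (Eq.refl 2690)) (Eq.refl 2685)) (Eq.refl 2657)) (RangeOK.join (RangeOK.join (RangeOK.join (RangeOK.of_check ck200) (RangeOK.of_check ck201) (Eq.refl 2714)) (RangeOK.join (RangeOK.of_check ck202) (RangeOK.of_check ck203) (Eq.refl 2731)) (Eq.refl 2725)) (RangeOK.join (RangeOK.join (RangeOK.of_check ck204) (RangeOK.of_check ck205) (Eq.refl 2749)) (RangeOK.join (RangeOK.of_check ck206) (RangeOK.of_check ck207) (Eq.refl 2765)) (Eq.refl 2754)) (Eq.refl 2739)) (Eq.refl 2700)) (RangeOK.join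 (RangeOK.join (RangeOK.join (RangeOK.join (RangeOK.of_check ck208) (RangeOK.of_check ck209) (Eq.refl 2779)) (RangeOK.join (RangeOK.of_check ck210) (RangeOK.of_check ck211) (Eq.refl 2798)) (Eq.refl 2790)) (RangeOK.join (RangeOK.join (RangeOK.of_check ck212) (RangeOK.of_check ck213) (Eq.refl 2809)) (RangeOK.join (RangeOK.of_check ck214) (RangeOK.of_check ck215) (Eq.refl 2827)) (Eq.refl 2821)) (Eq.refl 2804)) (RangeOK.join (RangeOK.join (RangeOK.join (RangeOK.of_check ck216) (RangeOK.of_check ck217) (Eq.refl 2837)) (RangeOK.join (RangeOK.of_check ck218) (RangeOK.of_check ck219) (Eq.refl 2854)) (Eq.refl 2845)) (RangeOK.join (RangeOK.join (RangeOK.of_check ck220) (RangeOK.of_check ck221) (Eq.refl 2885)) (RangeOK.join (RangeOK.of_check ck222) (RangeOK.of_check ck223) (Eq.refl 2913)) (Eq.refl 2894)) (Eq.refl 2873)) (Eq.refl 2832)) (Eq.refl 2770)) (RangeOK.join (RangeOK.join (RangeOK.join (RangeOK.join (RangeOK.join (RangeOK.of_check ck224) (RangeOK.of_check ck225) (Eq.refl 2926)) (RangeOK.join (RangeOK.of_check ck226) (RangeOK.of_check ck227)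 (Eq.refl 2951)) (Eq.refl 2930)) (RangeOK.join (RangeOK.join (RangeOK.of_check ck228) (RangeOK.of_check ck229) (Eq.refl 2989)) (RangeOK.join (RangeOK.of_check ck230) (RangeOK.of_check ck231) (Eq.refl 3027)) (Eq.refl 3008)) (Eq.refl 2970)) (RangeOK.join (RangeOK.join (RangeOK.join (RangeOK.of_check ck232) (RangeOK.of_check ck233) (Eq.refl 3068)) (RangeOK.join (RangeOK.of_check ck234) (RangeOK.of_check ck235) (Eq.refl 3104)) (Eq.refl 3085)) (RangeOK.join (RangeOK.join (RangeOK.of_check ck236) (RangeOK.of_check ck237) (Eq.refl 3136)) (RangeOK.join (RangeOK.of_check ck238) (RangeOK.of_check ck239) (Eq.refl 3172)) (Eq.refl 3151)) (Eq.refl 3121)) (Eq.refl 3047)) (RangeOK.join (RangeOK.join (RangeOK.join (RangeOK.join (RangeOK.of_check ck240) (RangeOK.of_check ck241) (Eq.refl 3209)) (RangeOK.join (RangeOK.of_check ck242) (RangeOK.of_check ck243) (Eq.refl 3231)) (Eq.refl 3221)) (RangeOK.join (RangeOK.join (RangeOK.of_check ck244) (RangeOK.of_check ck245) (Eq.refl 3262)) (RangeOK.join (RangeOK.of_check ck246) (RangeOK.of_check ck247) (Eq.refl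 3292)) (Eq.refl 3279)) (Eq.refl 3247)) (RangeOK.join (RangeOK.join (RangeOK.join (RangeOK.of_check ck248) (RangeOK.of_check ck249) (Eq.refl 3311)) (RangeOK.join (RangeOK.of_check ck250) (RangeOK.of_check ck251) (Eq.refl 3328)) (Eq.refl 3321)) (RangeOK.join (RangeOK.join (RangeOK.of_check ck252) (RangeOK.of_check ck253) (Eq.refl 3343)) (RangeOK.join (RangeOK.of_check ck254) (RangeOK.of_check ck255) (Eq.refl 3358)) (Eq.refl 3347)) (Eq.refl 3335)) (Eq.refl 3298)) (Eq.refl 3189)) (Eq.refl 2921)

end Vale.Agent.Snaky.P1
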