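import Vale.Agent.Snaky.P1.Tbl


namespace Vale.Agent.Snaky.P1

theorem ck256 : checkRange tbl 3363 5 = 0 := by decide +kernel
theorem ck257 : checkRange tbl 3368 19 = 0 := by decide +kernel
theorem ck258 : checkRange tbl 3387 10 = 0 := by decide +kernel
theorem ck259 : checkRange tbl 3397 4 = 0 := by decide +kernel
theorem ck260 : checkRange tbl 3401 9 = 0 := by decide +kernel
theorem ck261 : checkRange tbl 3410 6 = 0 := by decide +kernel
theorem ck262 : checkRange tbl 3416 5 = 0 := by decide +kernel
theorem ck263 : checkRange tbl 3421 4 = 0 := by decide +kernel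
theorem ck264 : checkRange tbl 3425 6 = 0 := by decide +kernel
theorem ck265 : checkRange tbl 3431 6 = 0 := by decide +kernel
theorem ck266 : checkRange tbl 3437 18 = 0 := by decide +kernel
theorem ck267 : checkRange tbl 3455 18 = 0 := by decide +kernel
theorem ck268 : checkRange tbl 3473 17 = 0 := by decide +kernel
theorem ck269 : checkRange tbl 3490 13 = 0 := by decide +kernel
theorem ck270 : checkRange tbl 3503 17 = 0 := by decide +kernel
theorem ck271 : checkRange tbl 3520 15 = 0 := by decide +kernel
theorem ck272 : checkRange tbl 3535 17 = 0 := by decide +kernel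
theorem ck273 : checkRange tbl 3552 14 = 0 := by decide +kernel
theorem ck274 : checkRange tbl 3566 20 = 0 := by decide +kernel
theorem ck275 : checkRange tbl 3586 19 = 0 := by decide +kernel
theorem ck276 : checkRange tbl 3605 21 = 0 := by decide +kernel
theorem ck277 : checkRange tbl 3626 19 = 0 := by decide +kernel
theorem ck278 : checkRange tbl 3645 18 = 0 := by decide +kernel
theorem ck279 : checkRange tbl 3663 19 = 0 := by decide +kernel
theorem ck280 : checkRange tbl 3682 20 = 0 := by decide +kernel
theorem ck281 : checkRange tbl 3702 20 = 0 := by decide +kernel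
theorem ck282 : checkRange tbl 3722 20 = 0 := by decide +kernel
theorem ck283 : checkRange tbl 3742 19 = 0 := by decide +kernel
theorem ck284 : checkRange tbl 3761 20 = 0 := by decide +kernel
theorem ck285 : checkRange tbl 3781 16 = 0 := by decide +kernel
theorem ck286 : checkRange tbl 3797 5 = 0 := by decide +kernel
theorem ck287 : checkRange tbl 3802 5 = 0 := by decide +kernel
theorem ck288 : checkRange tbl 3807 7 = 0 := by decide +kernel
theorem ck289 : checkRange tbl 3814 8 = 0 := by decide +kernel
theorem ck290 : checkRange tbl 3822 4 = 0 := by decide +kernel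
theorem ck291 : checkRange tbl 3826 11 = 0 := by decide +kernel
theorem ck292 : checkRange tbl 3837 12 = 0 := by decide +kernel
theorem ck293 : checkRange tbl 3849 10 = 0 := by decide +kernel
theorem ck294 : checkRange tbl 3859 13 = 0 := by decide +kernel
theorem ck295 : checkRange tbl 3872 14 = 0 := by decide +kernel
theorem ck296 : checkRange tbl 3886 17 = 0 := by decide +kernel
theorem ck297 : checkRange tbl 3903 13 = 0 := by decide +kernel
theorem ck298 : checkRange tbl 3916 13 = 0 := by decide +kernel
theorem ck299 : checkRange tbl 3929 11 = 0 := by decide +kernel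
theorem ck300 : checkRange tbl 3940 10 = 0 := by decide +kernel
theorem ck301 : checkRange tbl 3950 10 = 0 := by decide +kernel
theorem ck302 : checkRange tbl 3960 13 = 0 := by decide +kernel
theorem ck303 : checkRange tbl 3973 13 = 0 := by decide +kernel
theorem ck304 : checkRange tbl 3986 15 = 0 := by decide +kernel
theorem ck305 : checkRange tbl 4001 12 = 0 := by decide +kernel
theorem ck306 : checkRange tbl 4013 12 = 0 := by decide +kernel
theorem ck307 : checkRange tbl 4025 14 = 0 := by decide +kernel
theorem ck308 : checkRange tbl 4039 13 = 0 := by decide +kernel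
theorem ck309 : checkRange tbl 4052 14 = 0 := by decide +kernel
theorem ck310 : checkRange tbl 4066 12 = 0 := by decide +kernel
theorem ck311 : checkRange tbl 4078 19 = 0 := by decide +kernel
theorem ck312 : checkRange tbl 4097 15 = 0 := by decide +kernel
theorem ck313 : checkRange tbl 4112 18 = 0 := by decide +kernel
theorem ck314 : checkRange tbl 4130 17 = 0 := by decide +kernel
theorem ck315 : checkRange tbl 4147 16 = 0 := by decide +kernel
theorem ck316 : checkRange tbl 4163 15 = 0 := by decide +kernel
theorem ck317 : checkRange tbl 4178 19 = 0 := by decide +kernel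
theorem ck318 : checkRange tbl 4197 19 = 0 := by decide +kernel
theorem ck319 : checkRange tbl 4216 17 = 0 := by decide +kernel

theorem rng4 : RangeOK tbl 3363 870 := RangeOK.join (RangeOK.join (RangeOK.join (RangeOK.join (RangeOK.join (RangeOK.join (RangeOK.of_check ck256) (RangeOK.of_check ck257) (Eq.refl 3368)) (RangeOK.join (RangeOK.of_check ck258) (RangeOK.of_check ck259) (Eq.refl 3397)) (Eq.refl 3387)) (RangeOK.join (RangeOK.join (RangeOK.of_check ck260) (RangeOK.of_check ck261) (Eq.refl 3410)) (RangeOK.join (RangeOK.of_check ck262) (RangeOK.of_check ck263) (Eq.refl 3421)) (Eq.refl 3416)) (Eq.refl 3401)) (RangeOK.join (RangeOK.join (RangeOK.join (RangeOK.of_check ck264) (RangeOK.of_check ck265) (Eq.refl 3431)) (RangeOK.join (RangeOK.of_check ck266) (RangeOK.of_check ck267) (Eq.refl 3455)) (Eq.refl 3437)) (RangeOK.join (RangeOK.join (RangeOK.of_check ck268) (RangeOK.of_check ck269) (Eq.refl 3490)) (RangeOK.join (RangeOK.of_check ck270) (RangeOK.of_check ck271) (Eq.refl 3520)) (Eq.refl 3503)) (Eq.refl 3473)) (Eq.refl 3425)) (RangeOK.join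 (RangeOK.join (RangeOK.join (RangeOK.join (RangeOK.of_check ck272) (RangeOK.of_check ck273) (Eq.refl 3552)) (RangeOK.join (RangeOK.of_check ck274) (RangeOK.of_check ck275) (Eq.refl 3586)) (Eq.refl 3566)) (RangeOK.join (RangeOK.join (RangeOK.of_check ck276) (RangeOK.of_check ck277) (Eq.refl 3626)) (RangeOK.join (RangeOK.of_check ck278) (RangeOK.of_check ck279) (Eq.refl 3663)) (Eq.refl 3645)) (Eq.refl 3605)) (RangeOK.join (RangeOK.join (RangeOK.join (RangeOK.of_check ck280) (RangeOK.of_check ck281) (Eq.refl 3702)) (RangeOK.join (RangeOK.of_check ck282) (RangeOK.of_check ck283) (Eq.refl 3742)) (Eq.refl 3722)) (RangeOK.join (RangeOK.join (RangeOK.of_check ck284) (RangeOK.of_check ck285) (Eq.refl 3781)) (RangeOK.join (RangeOK.of_check ck286) (RangeOK.of_check ck287) (Eq.refl 3802)) (Eq.refl 3797)) (Eq.refl 3761)) (Eq.refl 3682)) (Eq.refl 3535)) (RangeOK.join (RangeOK.join (RangeOK.join (RangeOK.join (RangeOK.join (RangeOK.of_check ck288) (RangeOK.of_check ck289) (Eq.refl 3814)) (RangeOK.join (RangeOK.of_check ck290) (RangeOK.of_check ck291)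 (Eq.refl 3826)) (Eq.refl 3822)) (RangeOK.join (RangeOK.join (RangeOK.of_check ck292) (RangeOK.of_check ck293) (Eq.refl 3849)) (RangeOK.join (RangeOK.of_check ck294) (RangeOK.of_check ck295) (Eq.refl 3872)) (Eq.refl 3859)) (Eq.refl 3837)) (RangeOK.join (RangeOK.join (RangeOK.join (RangeOK.of_check ck296) (RangeOK.of_check ck297) (Eq.refl 3903)) (RangeOK.join (RangeOK.of_check ck298) (RangeOK.of_check ck299) (Eq.refl 3929)) (Eq.refl 3916)) (RangeOK.join (RangeOK.join (RangeOK.of_check ck300) (RangeOK.of_check ck301) (Eq.refl 3950)) (RangeOK.join (RangeOK.of_check ck302) (RangeOK.of_check ck303) (Eq.refl 3973)) (Eq.refl 3960)) (Eq.refl 3940)) (Eq.refl 3886)) (RangeOK.join (RangeOK.join (RangeOK.join (RangeOK.join (RangeOK.of_check ck304) (RangeOK.of_check ck305) (Eq.refl 4001)) (RangeOK.join (RangeOK.of_check ck306) (RangeOK.of_check ck307) (Eq.refl 4025)) (Eq.refl 4013)) (RangeOK.join (RangeOK.join (RangeOK.of_check ck308) (RangeOK.of_check ck309) (Eq.refl 4052)) (RangeOK.join (RangeOK.of_check ck310) (RangeOK.of_check ck311) (Eq.refl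 4078)) (Eq.refl 4066)) (Eq.refl 4039)) (RangeOK.join (RangeOK.join (RangeOK.join (RangeOK.of_check ck312) (RangeOK.of_check ck313) (Eq.refl 4112)) (RangeOK.join (RangeOK.of_check ck314) (RangeOK.of_check ck315) (Eq.refl 4147)) (Eq.refl 4130)) (RangeOK.join (RangeOK.join (RangeOK.of_check ck316) (RangeOK.of_check ck317) (Eq.refl 4178)) (RangeOK.join (RangeOK.of_check ck318) (RangeOK.of_check ck319) (Eq.refl 4216)) (Eq.refl 4197)) (Eq.refl 4163)) (Eq.refl 4097)) (Eq.refl 3986)) (Eq.refl 3807)

end Vale.Agent.Snaky.P1
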