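import Vale.Agent.Snaky.P1.Tbl


namespace Vale.Agent.Snaky.P1

theorem ck320 : checkRange tbl 4233 18 = 0 := by decide +kernel
theorem ck321 : checkRange tbl 4251 19 = 0 := by decide +kernel
theorem ck322 : checkRange tbl 4270 17 = 0 := by decide +kernel
theorem ck323 : checkRange tbl 4287 18 = 0 := by decide +kernel
theorem ck324 : checkRange tbl 4305 16 = 0 := by decide +kernel
theorem ck325 : checkRange tbl 4321 10 = 0 := by decide +kernel
theorem ck326 : checkRange tbl 4331 19 = 0 := by decide +kernel
theorem ck327 : checkRange tbl 4350 18 = 0 := by decide +kernel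
theorem ck328 : checkRange tbl 4368 18 = 0 := by decide +kernel
theorem ck329 : checkRange tbl 4386 19 = 0 := by decide +kernel
theorem ck330 : checkRange tbl 4405 15 = 0 := by decide +kernel
theorem ck331 : checkRange tbl 4420 13 = 0 := by decide +kernel
theorem ck332 : checkRange tbl 4433 13 = 0 := by decide +kernel
theorem ck333 : checkRange tbl 4446 7 = 0 := by decide +kernel
theorem ck334 : checkRange tbl 4453 12 = 0 := by decide +kernel
theorem ck335 : checkRange tbl 4465 12 = 0 := by decide +kernel
theorem ck336 : checkRange tbl 4477 18 = 0 := by decide +kernel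
theorem ck337 : checkRange tbl 4495 17 = 0 := by decide +kernel
theorem ck338 : checkRange tbl 4512 18 = 0 := by decide +kernel
theorem ck339 : checkRange tbl 4530 19 = 0 := by decide +kernel
theorem ck340 : checkRange tbl 4549 16 = 0 := by decide +kernel
theorem ck341 : checkRange tbl 4565 16 = 0 := by decide +kernel
theorem ck342 : checkRange tbl 4581 19 = 0 := by decide +kernel
theorem ck343 : checkRange tbl 4600 19 = 0 := by decide +kernel
theorem ck344 : checkRange tbl 4619 18 = 0 := by decide +kernel
theorem ck345 : checkRange tbl 4637 15 = 0 := by decide +kernel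
theorem ck346 : checkRange tbl 4652 14 = 0 := by decide +kernel
theorem ck347 : checkRange tbl 4666 15 = 0 := by decide +kernel
theorem ck348 : checkRange tbl 4681 16 = 0 := by decide +kernel
theorem ck349 : checkRange tbl 4697 23 = 0 := by decide +kernel
theorem ck350 : checkRange tbl 4720 9 = 0 := by decide +kernel
theorem ck351 : checkRange tbl 4729 13 = 0 := by decide +kernel
theorem ck352 : checkRange tbl 4742 19 = 0 := by decide +kernel
theorem ck353 : checkRange tbl 4761 14 = 0 := by decide +kernel
theorem ck354 : checkRange tbl 4775 17 = 0 := by decide +kernel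
theorem ck355 : checkRange tbl 4792 21 = 0 := by decide +kernel
theorem ck356 : checkRange tbl 4813 16 = 0 := by decide +kernel
theorem ck357 : checkRange tbl 4829 11 = 0 := by decide +kernel
theorem ck358 : checkRange tbl 4840 16 = 0 := by decide +kernel
theorem ck359 : checkRange tbl 4856 11 = 0 := by decide +kernel
theorem ck360 : checkRange tbl 4867 9 = 0 := by decide +kernel
theorem ck361 : checkRange tbl 4876 11 = 0 := by decide +kernel
theorem ck362 : checkRange tbl 4887 9 = 0 := by decide +kernel
theorem ck363 : checkRange tbl 4896 8 = 0 := by decide +kernel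
theorem ck364 : checkRange tbl 4904 8 = 0 := by decide +kernel
theorem ck365 : checkRange tbl 4912 7 = 0 := by decide +kernel
theorem ck366 : checkRange tbl 4919 5 = 0 := by decide +kernel
theorem ck367 : checkRange tbl 4924 11 = 0 := by decide +kernel
theorem ck368 : checkRange tbl 4935 19 = 0 := by decide +kernel
theorem ck369 : checkRange tbl 4954 17 = 0 := by decide +kernel
theorem ck370 : checkRange tbl 4971 17 = 0 := by decide +kernel
theorem ck371 : checkRange tbl 4988 19 = 0 := by decide +kernel
theorem ck372 : checkRange tbl 5007 18 = 0 := by decide +kernel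
theorem ck373 : checkRange tbl 5025 20 = 0 := by decide +kernel
theorem ck374 : checkRange tbl 5045 15 = 0 := by decide +kernel
theorem ck375 : checkRange tbl 5060 19 = 0 := by decide +kernel
theorem ck376 : checkRange tbl 5079 18 = 0 := by decide +kernel
theorem ck377 : checkRange tbl 5097 19 = 0 := by decide +kernel
theorem ck378 : checkRange tbl 5116 16 = 0 := by decide +kernel
theorem ck379 : checkRange tbl 5132 10 = 0 := by decide +kernel
theorem ck380 : checkRange tbl 5142 14 = 0 := by decide +kernel
theorem ck381 : checkRange tbl 5156 11 = 0 := by decide +kernel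
theorem ck382 : checkRange tbl 5167 10 = 0 := by decide +kernel
theorem ck383 : checkRange tbl 5177 7 = 0 := by decide +kernel

theorem rng5 : RangeOK tbl 4233 951 := RangeOK.join (RangeOK.join (RangeOK.join (RangeOK.join (RangeOK.join (RangeOK.join (RangeOK.of_check ck320) (RangeOK.of_check ck321) (Eq.refl 4251)) (RangeOK.join (RangeOK.of_check ck322) (RangeOK.of_check ck323) (Eq.refl 4287)) (Eq.refl 4270)) (RangeOK.join (RangeOK.join (RangeOK.of_check ck324) (RangeOK.of_check ck325) (Eq.refl 4321)) (RangeOK.join (RangeOK.of_check ck326) (RangeOK.of_check ck327) (Eq.refl 4350)) (Eq.refl 4331)) (Eq.refl 4305)) (RangeOK.join (RangeOK.join (RangeOK.join (RangeOK.of_check ck328) (RangeOK.of_check ck329) (Eq.refl 4386)) (RangeOK.join (RangeOK.of_check ck330) (RangeOK.of_check ck331) (Eq.refl 4420)) (Eq.refl 4405)) (RangeOK.join (RangeOK.join (RangeOK.of_check ck332) (RangeOK.of_check ck333) (Eq.refl 4446)) (RangeOK.join (RangeOK.of_check ck334) (RangeOK.of_check ck335) (Eq.refl 4465)) (Eq.refl 4453)) (Eq.refl 4433)) (Eq.refl 4368)) (RangeOK.join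 (RangeOK.join (RangeOK.join (RangeOK.join (RangeOK.of_check ck336) (RangeOK.of_check ck337) (Eq.refl 4495)) (RangeOK.join (RangeOK.of_check ck338) (RangeOK.of_check ck339) (Eq.refl 4530)) (Eq.refl 4512)) (RangeOK.join (RangeOK.join (RangeOK.of_check ck340) (RangeOK.of_check ck341) (Eq.refl 4565)) (RangeOK.join (RangeOK.of_check ck342) (RangeOK.of_check ck343) (Eq.refl 4600)) (Eq.refl 4581)) (Eq.refl 4549)) (RangeOK.join (RangeOK.join (RangeOK.join (RangeOK.of_check ck344) (RangeOK.of_check ck345) (Eq.refl 4637)) (RangeOK.join (RangeOK.of_check ck346) (RangeOK.of_check ck347) (Eq.refl 4666)) (Eq.refl 4652)) (RangeOK.join (RangeOK.join (RangeOK.of_check ck348) (RangeOK.of_check ck349) (Eq.refl 4697)) (RangeOK.join (RangeOK.of_check ck350) (RangeOK.of_check ck351) (Eq.refl 4729)) (Eq.refl 4720)) (Eq.refl 4681)) (Eq.refl 4619)) (Eq.refl 4477)) (RangeOK.join (RangeOK.join (RangeOK.join (RangeOK.join (RangeOK.join (RangeOK.of_check ck352) (RangeOK.of_check ck353) (Eq.refl 4761)) (RangeOK.join (RangeOK.of_check ck354) (RangeOK.of_check ck355)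 (Eq.refl 4792)) (Eq.refl 4775)) (RangeOK.join (RangeOK.join (RangeOK.of_check ck356) (RangeOK.of_check ck357) (Eq.refl 4829)) (RangeOK.join (RangeOK.of_check ck358) (RangeOK.of_check ck359) (Eq.refl 4856)) (Eq.refl 4840)) (Eq.refl 4813)) (RangeOK.join (RangeOK.join (RangeOK.join (RangeOK.of_check ck360) (RangeOK.of_check ck361) (Eq.refl 4876)) (RangeOK.join (RangeOK.of_check ck362) (RangeOK.of_check ck363) (Eq.refl 4896)) (Eq.refl 4887)) (RangeOK.join (RangeOK.join (RangeOK.of_check ck364) (RangeOK.of_check ck365) (Eq.refl 4912)) (RangeOK.join (RangeOK.of_check ck366) (RangeOK.of_check ck367) (Eq.refl 4924)) (Eq.refl 4919)) (Eq.refl 4904)) (Eq.refl 4867)) (RangeOK.join (RangeOK.join (RangeOK.join (RangeOK.join (RangeOK.of_check ck368) (RangeOK.of_check ck369) (Eq.refl 4954)) (RangeOK.join (RangeOK.of_check ck370) (RangeOK.of_check ck371) (Eq.refl 4988)) (Eq.refl 4971)) (RangeOK.join (RangeOK.join (RangeOK.of_check ck372) (RangeOK.of_check ck373) (Eq.refl 5025)) (RangeOK.join (RangeOK.of_check ck374) (RangeOK.of_check ck375) (Eq.refl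 5060)) (Eq.refl 5045)) (Eq.refl 5007)) (RangeOK.join (RangeOK.join (RangeOK.join (RangeOK.of_check ck376) (RangeOK.of_check ck377) (Eq.refl 5097)) (RangeOK.join (RangeOK.of_check ck378) (RangeOK.of_check ck379) (Eq.refl 5132)) (Eq.refl 5116)) (RangeOK.join (RangeOK.join (RangeOK.of_check ck380) (RangeOK.of_check ck381) (Eq.refl 5156)) (RangeOK.join (RangeOK.of_check ck382) (RangeOK.of_check ck383) (Eq.refl 5177)) (Eq.refl 5167)) (Eq.refl 5142)) (Eq.refl 5079)) (Eq.refl 4935)) (Eq.refl 4742)

end Vale.Agent.Snaky.P1
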