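import Vale.Agent.Snaky.P1.Tbl


namespace Vale.Agent.Snaky.P1

theorem ck384 : checkRange tbl 5184 6 = 0 := by decide +kernel
theorem ck385 : checkRange tbl 5190 10 = 0 := by decide +kernel
theorem ck386 : checkRange tbl 5200 4 = 0 := by decide +kernel
theorem ck387 : checkRange tbl 5204 11 = 0 := by decide +kernel
theorem ck388 : checkRange tbl 5215 10 = 0 := by decide +kernel
theorem ck389 : checkRange tbl 5225 8 = 0 := by decide +kernel
theorem ck390 : checkRange tbl 5233 17 = 0 := by decide +kernel
theorem ck391 : checkRange tbl 5250 15 = 0 := by decide +kernel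
theorem ck392 : checkRange tbl 5265 16 = 0 := by decide +kernel
theorem ck393 : checkRange tbl 5281 21 = 0 := by decide +kernel
theorem ck394 : checkRange tbl 5302 21 = 0 := by decide +kernel
theorem ck395 : checkRange tbl 5323 20 = 0 := by decide +kernel
theorem ck396 : checkRange tbl 5343 20 = 0 := by decide +kernel
theorem ck397 : checkRange tbl 5363 17 = 0 := by decide +kernel
theorem ck398 : checkRange tbl 5380 20 = 0 := by decide +kernel
theorem ck399 : checkRange tbl 5400 18 = 0 := by decide +kernel
theorem ck400 : checkRange tbl 5418 17 = 0 := by decide +kernel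
theorem ck401 : checkRange tbl 5435 3 = 0 := by decide +kernel
theorem ck402 : checkRange tbl 5438 6 = 0 := by decide +kernel
theorem ck403 : checkRange tbl 5444 15 = 0 := by decide +kernel
theorem ck404 : checkRange tbl 5459 10 = 0 := by decide +kernel
theorem ck405 : checkRange tbl 5469 8 = 0 := by decide +kernel
theorem ck406 : checkRange tbl 5477 13 = 0 := by decide +kernel
theorem ck407 : checkRange tbl 5490 7 = 0 := by decide +kernel
theorem ck408 : checkRange tbl 5497 9 = 0 := by decide +kernel
theorem ck409 : checkRange tbl 5506 15 = 0 := by decide +kernel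
theorem ck410 : checkRange tbl 5521 4 = 0 := by decide +kernel
theorem ck411 : checkRange tbl 5525 5 = 0 := by decide +kernel
theorem ck412 : checkRange tbl 5530 6 = 0 := by decide +kernel
theorem ck413 : checkRange tbl 5536 6 = 0 := by decide +kernel
theorem ck414 : checkRange tbl 5542 6 = 0 := by decide +kernel
theorem ck415 : checkRange tbl 5548 11 = 0 := by decide +kernel
theorem ck416 : checkRange tbl 5559 4 = 0 := by decide +kernel
theorem ck417 : checkRange tbl 5563 14 = 0 := by decide +kernel
theorem ck418 : checkRange tbl 5577 16 = 0 := by decide +kernel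
theorem ck419 : checkRange tbl 5593 20 = 0 := by decide +kernel
theorem ck420 : checkRange tbl 5613 21 = 0 := by decide +kernel
theorem ck421 : checkRange tbl 5634 19 = 0 := by decide +kernel
theorem ck422 : checkRange tbl 5653 21 = 0 := by decide +kernel
theorem ck423 : checkRange tbl 5674 17 = 0 := by decide +kernel
theorem ck424 : checkRange tbl 5691 12 = 0 := by decide +kernel
theorem ck425 : checkRange tbl 5703 8 = 0 := by decide +kernel
theorem ck426 : checkRange tbl 5711 4 = 0 := by decide +kernel
theorem ck427 : checkRange tbl 5715 11 = 0 := by decide +kernel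
theorem ck428 : checkRange tbl 5726 18 = 0 := by decide +kernel
theorem ck429 : checkRange tbl 5744 13 = 0 := by decide +kernel
theorem ck430 : checkRange tbl 5757 5 = 0 := by decide +kernel
theorem ck431 : checkRange tbl 5762 9 = 0 := by decide +kernel
theorem ck432 : checkRange tbl 5771 20 = 0 := by decide +kernel
theorem ck433 : checkRange tbl 5791 7 = 0 := by decide +kernel
theorem ck434 : checkRange tbl 5798 15 = 0 := by decide +kernel
theorem ck435 : checkRange tbl 5813 5 = 0 := by decide +kernel
theorem ck436 : checkRange tbl 5818 7 = 0 := by decide +kernel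
theorem ck437 : checkRange tbl 5825 18 = 0 := by decide +kernel
theorem ck438 : checkRange tbl 5843 13 = 0 := by decide +kernel
theorem ck439 : checkRange tbl 5856 5 = 0 := by decide +kernel
theorem ck440 : checkRange tbl 5861 16 = 0 := by decide +kernel
theorem ck441 : checkRange tbl 5877 6 = 0 := by decide +kernel
theorem ck442 : checkRange tbl 5883 8 = 0 := by decide +kernel
theorem ck443 : checkRange tbl 5891 6 = 0 := by decide +kernel
theorem ck444 : checkRange tbl 5897 16 = 0 := by decide +kernel
theorem ck445 : checkRange tbl 5913 18 = 0 := by decide +kernel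
theorem ck446 : checkRange tbl 5931 14 = 0 := by decide +kernel
theorem ck447 : checkRange tbl 5945 21 = 0 := by decide +kernel

theorem rng6 : RangeOK tbl 5184 782 := RangeOK.join (RangeOK.join (RangeOK.join (RangeOK.join (RangeOK.join (RangeOK.join (RangeOK.of_check ck384) (RangeOK.of_check ck385) (Eq.refl 5190)) (RangeOK.join (RangeOK.of_check ck386) (RangeOK.of_check ck387) (Eq.refl 5204)) (Eq.refl 5200)) (RangeOK.join (RangeOK.join (RangeOK.of_check ck388) (RangeOK.of_check ck389) (Eq.refl 5225)) (RangeOK.join (RangeOK.of_check ck390) (RangeOK.of_check ck391) (Eq.refl 5250)) (Eq.refl 5233)) (Eq.refl 5215)) (RangeOK.join (RangeOK.join (RangeOK.join (RangeOK.of_check ck392) (RangeOK.of_check ck393) (Eq.refl 5281)) (RangeOK.join (RangeOK.of_check ck394) (RangeOK.of_check ck395) (Eq.refl 5323)) (Eq.refl 5302)) (RangeOK.join (RangeOK.join (RangeOK.of_check ck396) (RangeOK.of_check ck397) (Eq.refl 5363)) (RangeOK.join (RangeOK.of_check ck398) (RangeOK.of_check ck399) (Eq.refl 5400)) (Eq.refl 5380)) (Eq.refl 5343)) (Eq.refl 5265)) (RangeOK.join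 (RangeOK.join (RangeOK.join (RangeOK.join (RangeOK.of_check ck400) (RangeOK.of_check ck401) (Eq.refl 5435)) (RangeOK.join (RangeOK.of_check ck402) (RangeOK.of_check ck403) (Eq.refl 5444)) (Eq.refl 5438)) (RangeOK.join (RangeOK.join (RangeOK.of_check ck404) (RangeOK.of_check ck405) (Eq.refl 5469)) (RangeOK.join (RangeOK.of_check ck406) (RangeOK.of_check ck407) (Eq.refl 5490)) (Eq.refl 5477)) (Eq.refl 5459)) (RangeOK.join (RangeOK.join (RangeOK.join (RangeOK.of_check ck408) (RangeOK.of_check ck409) (Eq.refl 5506)) (RangeOK.join (RangeOK.of_check ck410) (RangeOK.of_check ck411) (Eq.refl 5525)) (Eq.refl 5521)) (RangeOK.join (RangeOK.join (RangeOK.of_check ck412) (RangeOK.of_check ck413) (Eq.refl 5536)) (RangeOK.join (RangeOK.of_check ck414) (RangeOK.of_check ck415) (Eq.refl 5548)) (Eq.refl 5542)) (Eq.refl 5530)) (Eq.refl 5497)) (Eq.refl 5418)) (RangeOK.join (RangeOK.join (RangeOK.join (RangeOK.join (RangeOK.join (RangeOK.of_check ck416) (RangeOK.of_check ck417) (Eq.refl 5563)) (RangeOK.join (RangeOK.of_check ck418) (RangeOK.of_check ck419)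 (Eq.refl 5593)) (Eq.refl 5577)) (RangeOK.join (RangeOK.join (RangeOK.of_check ck420) (RangeOK.of_check ck421) (Eq.refl 5634)) (RangeOK.join (RangeOK.of_check ck422) (RangeOK.of_check ck423) (Eq.refl 5674)) (Eq.refl 5653)) (Eq.refl 5613)) (RangeOK.join (RangeOK.join (RangeOK.join (RangeOK.of_check ck424) (RangeOK.of_check ck425) (Eq.refl 5703)) (RangeOK.join (RangeOK.of_check ck426) (RangeOK.of_check ck427) (Eq.refl 5715)) (Eq.refl 5711)) (RangeOK.join (RangeOK.join (RangeOK.of_check ck428) (RangeOK.of_check ck429) (Eq.refl 5744)) (RangeOK.join (RangeOK.of_check ck430) (RangeOK.of_check ck431) (Eq.refl 5762)) (Eq.refl 5757)) (Eq.refl 5726)) (Eq.refl 5691)) (RangeOK.join (RangeOK.join (RangeOK.join (RangeOK.join (RangeOK.of_check ck432) (RangeOK.of_check ck433) (Eq.refl 5791)) (RangeOK.join (RangeOK.of_check ck434) (RangeOK.of_check ck435) (Eq.refl 5813)) (Eq.refl 5798)) (RangeOK.join (RangeOK.join (RangeOK.of_check ck436) (RangeOK.of_check ck437) (Eq.refl 5825)) (RangeOK.join (RangeOK.of_check ck438) (RangeOK.of_check ck439) (Eq.refl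 5856)) (Eq.refl 5843)) (Eq.refl 5818)) (RangeOK.join (RangeOK.join (RangeOK.join (RangeOK.of_check ck440) (RangeOK.of_check ck441) (Eq.refl 5877)) (RangeOK.join (RangeOK.of_check ck442) (RangeOK.of_check ck443) (Eq.refl 5891)) (Eq.refl 5883)) (RangeOK.join (RangeOK.join (RangeOK.of_check ck444) (RangeOK.of_check ck445) (Eq.refl 5913)) (RangeOK.join (RangeOK.of_check ck446) (RangeOK.of_check ck447) (Eq.refl 5945)) (Eq.refl 5931)) (Eq.refl 5897)) (Eq.refl 5861)) (Eq.refl 5771)) (Eq.refl 5559)

end Vale.Agent.Snaky.P1
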