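import Vale.Agent.Snaky.P1.Tbl


namespace Vale.Agent.Snaky.P1

theorem ck448 : checkRange tbl 5966 19 = 0 := by decide +kernel
theorem ck449 : checkRange tbl 5985 16 = 0 := by decide +kernel
theorem ck450 : checkRange tbl 6001 12 = 0 := by decide +kernel
theorem ck451 : checkRange tbl 6013 4 = 0 := by decide +kernel
theorem ck452 : checkRange tbl 6017 4 = 0 := by decide +kernel
theorem ck453 : checkRange tbl 6021 9 = 0 := by decide +kernel
theorem ck454 : checkRange tbl 6030 3 = 0 := by decide +kernel
theorem ck455 : checkRange tbl 6033 11 = 0 := by decide +kernel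
theorem ck456 : checkRange tbl 6044 18 = 0 := by decide +kernel
theorem ck457 : checkRange tbl 6062 15 = 0 := by decide +kernel
theorem ck458 : checkRange tbl 6077 18 = 0 := by decide +kernel
theorem ck459 : checkRange tbl 6095 19 = 0 := by decide +kernel
theorem ck460 : checkRange tbl 6114 19 = 0 := by decide +kernel
theorem ck461 : checkRange tbl 6133 15 = 0 := by decide +kernel
theorem ck462 : checkRange tbl 6148 15 = 0 := by decide +kernel
theorem ck463 : checkRange tbl 6163 14 = 0 := by decide +kernel
theorem ck464 : checkRange tbl 6177 13 = 0 := by decide +kernel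
theorem ck465 : checkRange tbl 6190 16 = 0 := by decide +kernel
theorem ck466 : checkRange tbl 6206 10 = 0 := by decide +kernel
theorem ck467 : checkRange tbl 6216 13 = 0 := by decide +kernel
theorem ck468 : checkRange tbl 6229 18 = 0 := by decide +kernel
theorem ck469 : checkRange tbl 6247 16 = 0 := by decide +kernel
theorem ck470 : checkRange tbl 6263 14 = 0 := by decide +kernel
theorem ck471 : checkRange tbl 6277 15 = 0 := by decide +kernel
theorem ck472 : checkRange tbl 6292 18 = 0 := by decide +kernel
theorem ck473 : checkRange tbl 6310 18 = 0 := by decide +kernel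
theorem ck474 : checkRange tbl 6328 17 = 0 := by decide +kernel
theorem ck475 : checkRange tbl 6345 18 = 0 := by decide +kernel
theorem ck476 : checkRange tbl 6363 19 = 0 := by decide +kernel
theorem ck477 : checkRange tbl 6382 17 = 0 := by decide +kernel
theorem ck478 : checkRange tbl 6399 16 = 0 := by decide +kernel
theorem ck479 : checkRange tbl 6415 18 = 0 := by decide +kernel
theorem ck480 : checkRange tbl 6433 22 = 0 := by decide +kernel
theorem ck481 : checkRange tbl 6455 20 = 0 := by decide +kernel
theorem ck482 : checkRange tbl 6475 18 = 0 := by decide +kernel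
theorem ck483 : checkRange tbl 6493 21 = 0 := by decide +kernel
theorem ck484 : checkRange tbl 6514 20 = 0 := by decide +kernel
theorem ck485 : checkRange tbl 6534 18 = 0 := by decide +kernel
theorem ck486 : checkRange tbl 6552 11 = 0 := by decide +kernel
theorem ck487 : checkRange tbl 6563 13 = 0 := by decide +kernel
theorem ck488 : checkRange tbl 6576 15 = 0 := by decide +kernel
theorem ck489 : checkRange tbl 6591 19 = 0 := by decide +kernel
theorem ck490 : checkRange tbl 6610 19 = 0 := by decide +kernel
theorem ck491 : checkRange tbl 6629 6 = 0 := by decide +kernel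
theorem ck492 : checkRange tbl 6635 13 = 0 := by decide +kernel
theorem ck493 : checkRange tbl 6648 7 = 0 := by decide +kernel
theorem ck494 : checkRange tbl 6655 4 = 0 := by decide +kernel
theorem ck495 : checkRange tbl 6659 8 = 0 := by decide +kernel
theorem ck496 : checkRange tbl 6667 5 = 0 := by decide +kernel
theorem ck497 : checkRange tbl 6672 4 = 0 := by decide +kernel
theorem ck498 : checkRange tbl 6676 3 = 0 := by decide +kernel
theorem ck499 : checkRange tbl 6679 6 = 0 := by decide +kernel
theorem ck500 : checkRange tbl 6685 5 = 0 := by decide +kernel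
theorem ck501 : checkRange tbl 6690 8 = 0 := by decide +kernel
theorem ck502 : checkRange tbl 6698 9 = 0 := by decide +kernel
theorem ck503 : checkRange tbl 6707 13 = 0 := by decide +kernel
theorem ck504 : checkRange tbl 6720 13 = 0 := by decide +kernel
theorem ck505 : checkRange tbl 6733 12 = 0 := by decide +kernel
theorem ck506 : checkRange tbl 6745 21 = 0 := by decide +kernel
theorem ck507 : checkRange tbl 6766 10 = 0 := by decide +kernel
theorem ck508 : checkRange tbl 6776 7 = 0 := by decide +kernel
theorem ck509 : checkRange tbl 6783 14 = 0 := by decide +kernel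
theorem ck510 : checkRange tbl 6797 18 = 0 := by decide +kernel
theorem ck511 : checkRange tbl 6815 17 = 0 := by decide +kernel

theorem rng7 : RangeOK tbl 5966 866 := RangeOK.join (RangeOK.join (RangeOK.join (RangeOK.join (RangeOK.join (RangeOK.join (RangeOK.of_check ck448) (RangeOK.of_check ck449) (Eq.refl 5985)) (RangeOK.join (RangeOK.of_check ck450) (RangeOK.of_check ck451) (Eq.refl 6013)) (Eq.refl 6001)) (RangeOK.join (RangeOK.join (RangeOK.of_check ck452) (RangeOK.of_check ck453) (Eq.refl 6021)) (RangeOK.join (RangeOK.of_check ck454) (RangeOK.of_check ck455) (Eq.refl 6033)) (Eq.refl 6030)) (Eq.refl 6017)) (RangeOK.join (RangeOK.join (RangeOK.join (RangeOK.of_check ck456) (RangeOK.of_check ck457) (Eq.refl 6062)) (RangeOK.join (RangeOK.of_check ck458) (RangeOK.of_check ck459) (Eq.refl 6095)) (Eq.refl 6077)) (RangeOK.join (RangeOK.join (RangeOK.of_check ck460) (RangeOK.of_check ck461) (Eq.refl 6133)) (RangeOK.join (RangeOK.of_check ck462) (RangeOK.of_check ck463) (Eq.refl 6163)) (Eq.refl 6148)) (Eq.refl 6114)) (Eq.refl 6044)) (RangeOK.join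 (RangeOK.join (RangeOK.join (RangeOK.join (RangeOK.of_check ck464) (RangeOK.of_check ck465) (Eq.refl 6190)) (RangeOK.join (RangeOK.of_check ck466) (RangeOK.of_check ck467) (Eq.refl 6216)) (Eq.refl 6206)) (RangeOK.join (RangeOK.join (RangeOK.of_check ck468) (RangeOK.of_check ck469) (Eq.refl 6247)) (RangeOK.join (RangeOK.of_check ck470) (RangeOK.of_check ck471) (Eq.refl 6277)) (Eq.refl 6263)) (Eq.refl 6229)) (RangeOK.join (RangeOK.join (RangeOK.join (RangeOK.of_check ck472) (RangeOK.of_check ck473) (Eq.refl 6310)) (RangeOK.join (RangeOK.of_check ck474) (RangeOK.of_check ck475) (Eq.refl 6345)) (Eq.refl 6328)) (RangeOK.join (RangeOK.join (RangeOK.of_check ck476) (RangeOK.of_check ck477) (Eq.refl 6382)) (RangeOK.join (RangeOK.of_check ck478) (RangeOK.of_check ck479) (Eq.refl 6415)) (Eq.refl 6399)) (Eq.refl 6363)) (Eq.refl 6292)) (Eq.refl 6177)) (RangeOK.join (RangeOK.join (RangeOK.join (RangeOK.join (RangeOK.join (RangeOK.of_check ck480) (RangeOK.of_check ck481) (Eq.refl 6455)) (RangeOK.join (RangeOK.of_check ck482) (RangeOK.of_check ck483)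 (Eq.refl 6493)) (Eq.refl 6475)) (RangeOK.join (RangeOK.join (RangeOK.of_check ck484) (RangeOK.of_check ck485) (Eq.refl 6534)) (RangeOK.join (RangeOK.of_check ck486) (RangeOK.of_check ck487) (Eq.refl 6563)) (Eq.refl 6552)) (Eq.refl 6514)) (RangeOK.join (RangeOK.join (RangeOK.join (RangeOK.of_check ck488) (RangeOK.of_check ck489) (Eq.refl 6591)) (RangeOK.join (RangeOK.of_check ck490) (RangeOK.of_check ck491) (Eq.refl 6629)) (Eq.refl 6610)) (RangeOK.join (RangeOK.join (RangeOK.of_check ck492) (RangeOK.of_check ck493) (Eq.refl 6648)) (RangeOK.join (RangeOK.of_check ck494) (RangeOK.of_check ck495) (Eq.refl 6659)) (Eq.refl 6655)) (Eq.refl 6635)) (Eq.refl 6576)) (RangeOK.join (RangeOK.join (RangeOK.join (RangeOK.join (RangeOK.of_check ck496) (RangeOK.of_check ck497) (Eq.refl 6672)) (RangeOK.join (RangeOK.of_check ck498) (RangeOK.of_check ck499) (Eq.refl 6679)) (Eq.refl 6676)) (RangeOK.join (RangeOK.join (RangeOK.of_check ck500) (RangeOK.of_check ck501) (Eq.refl 6690)) (RangeOK.join (RangeOK.of_check ck502) (RangeOK.of_check ck503) (Eq.refl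 6707)) (Eq.refl 6698)) (Eq.refl 6685)) (RangeOK.join (RangeOK.join (RangeOK.join (RangeOK.of_check ck504) (RangeOK.of_check ck505) (Eq.refl 6733)) (RangeOK.join (RangeOK.of_check ck506) (RangeOK.of_check ck507) (Eq.refl 6766)) (Eq.refl 6745)) (RangeOK.join (RangeOK.join (RangeOK.of_check ck508) (RangeOK.of_check ck509) (Eq.refl 6783)) (RangeOK.join (RangeOK.of_check ck510) (RangeOK.of_check ck511) (Eq.refl 6815)) (Eq.refl 6797)) (Eq.refl 6776)) (Eq.refl 6720)) (Eq.refl 6667)) (Eq.refl 6433)

end Vale.Agent.Snaky.P1
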