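import Vale.Agent.Snaky.P1.Tbl


namespace Vale.Agent.Snaky.P1

theorem ck512 : checkRange tbl 6832 15 = 0 := by decide +kernel
theorem ck513 : checkRange tbl 6847 4 = 0 := by decide +kernel
theorem ck514 : checkRange tbl 6851 15 = 0 := by decide +kernel
theorem ck515 : checkRange tbl 6866 8 = 0 := by decide +kernel
theorem ck516 : checkRange tbl 6874 9 = 0 := by decide +kernel
theorem ck517 : checkRange tbl 6883 4 = 0 := by decide +kernel
theorem ck518 : checkRange tbl 6887 2 = 0 := by decide +kernel
theorem ck519 : checkRange tbl 6889 2 = 0 := by decide +kernel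
theorem ck520 : checkRange tbl 6891 2 = 0 := by decide +kernel
theorem ck521 : checkRange tbl 6893 13 = 0 := by decide +kernel
theorem ck522 : checkRange tbl 6906 19 = 0 := by decide +kernel
theorem ck523 : checkRange tbl 6925 21 = 0 := by decide +kernel
theorem ck524 : checkRange tbl 6946 9 = 0 := by decide +kernel
theorem ck525 : checkRange tbl 6955 8 = 0 := by decide +kernel
theorem ck526 : checkRange tbl 6963 17 = 0 := by decide +kernel
theorem ck527 : checkRange tbl 6980 19 = 0 := by decide +kernel
theorem ck528 : checkRange tbl 6999 17 = 0 := by decide +kernel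
theorem ck529 : checkRange tbl 7016 8 = 0 := by decide +kernel
theorem ck530 : checkRange tbl 7024 7 = 0 := by decide +kernel
theorem ck531 : checkRange tbl 7031 20 = 0 := by decide +kernel
theorem ck532 : checkRange tbl 7051 19 = 0 := by decide +kernel
theorem ck533 : checkRange tbl 7070 20 = 0 := by decide +kernel
theorem ck534 : checkRange tbl 7090 21 = 0 := by decide +kernel
theorem ck535 : checkRange tbl 7111 20 = 0 := by decide +kernel
theorem ck536 : checkRange tbl 7131 18 = 0 := by decide +kernel
theorem ck537 : checkRange tbl 7149 20 = 0 := by decide +kernel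
theorem ck538 : checkRange tbl 7169 6 = 0 := by decide +kernel
theorem ck539 : checkRange tbl 7175 4 = 0 := by decide +kernel
theorem ck540 : checkRange tbl 7179 20 = 0 := by decide +kernel
theorem ck541 : checkRange tbl 7199 19 = 0 := by decide +kernel
theorem ck542 : checkRange tbl 7218 12 = 0 := by decide +kernel
theorem ck543 : checkRange tbl 7230 18 = 0 := by decide +kernel
theorem ck544 : checkRange tbl 7248 10 = 0 := by decide +kernel
theorem ck545 : checkRange tbl 7258 14 = 0 := by decide +kernel
theorem ck546 : checkRange tbl 7272 11 = 0 := by decide +kernel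
theorem ck547 : checkRange tbl 7283 5 = 0 := by decide +kernel
theorem ck548 : checkRange tbl 7288 8 = 0 := by decide +kernel
theorem ck549 : checkRange tbl 7296 16 = 0 := by decide +kernel
theorem ck550 : checkRange tbl 7312 19 = 0 := by decide +kernel
theorem ck551 : checkRange tbl 7331 20 = 0 := by decide +kernel
theorem ck552 : checkRange tbl 7351 18 = 0 := by decide +kernel
theorem ck553 : checkRange tbl 7369 19 = 0 := by decide +kernel
theorem ck554 : checkRange tbl 7388 18 = 0 := by decide +kernel
theorem ck555 : checkRange tbl 7406 18 = 0 := by decide +kernel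
theorem ck556 : checkRange tbl 7424 8 = 0 := by decide +kernel
theorem ck557 : checkRange tbl 7432 16 = 0 := by decide +kernel
theorem ck558 : checkRange tbl 7448 7 = 0 := by decide +kernel
theorem ck559 : checkRange tbl 7455 4 = 0 := by decide +kernel
theorem ck560 : checkRange tbl 7459 14 = 0 := by decide +kernel
theorem ck561 : checkRange tbl 7473 18 = 0 := by decide +kernel
theorem ck562 : checkRange tbl 7491 16 = 0 := by decide +kernel
theorem ck563 : checkRange tbl 7507 18 = 0 := by decide +kernel
theorem ck564 : checkRange tbl 7525 18 = 0 := by decide +kernel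
theorem ck565 : checkRange tbl 7543 20 = 0 := by decide +kernel
theorem ck566 : checkRange tbl 7563 19 = 0 := by decide +kernel
theorem ck567 : checkRange tbl 7582 21 = 0 := by decide +kernel
theorem ck568 : checkRange tbl 7603 21 = 0 := by decide +kernel
theorem ck569 : checkRange tbl 7624 19 = 0 := by decide +kernel
theorem ck570 : checkRange tbl 7643 21 = 0 := by decide +kernel
theorem ck571 : checkRange tbl 7664 21 = 0 := by decide +kernel
theorem ck572 : checkRange tbl 7685 15 = 0 := by decide +kernel
theorem ck573 : checkRange tbl 7700 11 = 0 := by decide +kernel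
theorem ck574 : checkRange tbl 7711 3 = 0 := by decide +kernel
theorem ck575 : checkRange tbl 7714 4 = 0 := by decide +kernel

theorem rng8 : RangeOK tbl 6832 886 := RangeOK.join (RangeOK.join (RangeOK.join (RangeOK.join (RangeOK.join (RangeOK.join (RangeOK.of_check ck512) (RangeOK.of_check ck513) (Eq.refl 6847)) (RangeOK.join (RangeOK.of_check ck514) (RangeOK.of_check ck515) (Eq.refl 6866)) (Eq.refl 6851)) (RangeOK.join (RangeOK.join (RangeOK.of_check ck516) (RangeOK.of_check ck517) (Eq.refl 6883)) (RangeOK.join (RangeOK.of_check ck518) (RangeOK.of_check ck519) (Eq.refl 6889)) (Eq.refl 6887)) (Eq.refl 6874)) (RangeOK.join (RangeOK.join (RangeOK.join (RangeOK.of_check ck520) (RangeOK.of_check ck521) (Eq.refl 6893)) (RangeOK.join (RangeOK.of_check ck522) (RangeOK.of_check ck523) (Eq.refl 6925)) (Eq.refl 6906)) (RangeOK.join (RangeOK.join (RangeOK.of_check ck524) (RangeOK.of_check ck525) (Eq.refl 6955)) (RangeOK.join (RangeOK.of_check ck526) (RangeOK.of_check ck527) (Eq.refl 6980)) (Eq.refl 6963)) (Eq.refl 6946)) (Eq.refl 6891)) (RangeOK.join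 (RangeOK.join (RangeOK.join (RangeOK.join (RangeOK.of_check ck528) (RangeOK.of_check ck529) (Eq.refl 7016)) (RangeOK.join (RangeOK.of_check ck530) (RangeOK.of_check ck531) (Eq.refl 7031)) (Eq.refl 7024)) (RangeOK.join (RangeOK.join (RangeOK.of_check ck532) (RangeOK.of_check ck533) (Eq.refl 7070)) (RangeOK.join (RangeOK.of_check ck534) (RangeOK.of_check ck535) (Eq.refl 7111)) (Eq.refl 7090)) (Eq.refl 7051)) (RangeOK.join (RangeOK.join (RangeOK.join (RangeOK.of_check ck536) (RangeOK.of_check ck537) (Eq.refl 7149)) (RangeOK.join (RangeOK.of_check ck538) (RangeOK.of_check ck539) (Eq.refl 7175)) (Eq.refl 7169)) (RangeOK.join (RangeOK.join (RangeOK.of_check ck540) (RangeOK.of_check ck541) (Eq.refl 7199)) (RangeOK.join (RangeOK.of_check ck542) (RangeOK.of_check ck543) (Eq.refl 7230)) (Eq.refl 7218)) (Eq.refl 7179)) (Eq.refl 7131)) (Eq.refl 6999)) (RangeOK.join (RangeOK.join (RangeOK.join (RangeOK.join (RangeOK.join (RangeOK.of_check ck544) (RangeOK.of_check ck545) (Eq.refl 7258)) (RangeOK.join (RangeOK.of_check ck546) (RangeOK.of_check ck547)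 (Eq.refl 7283)) (Eq.refl 7272)) (RangeOK.join (RangeOK.join (RangeOK.of_check ck548) (RangeOK.of_check ck549) (Eq.refl 7296)) (RangeOK.join (RangeOK.of_check ck550) (RangeOK.of_check ck551) (Eq.refl 7331)) (Eq.refl 7312)) (Eq.refl 7288)) (RangeOK.join (RangeOK.join (RangeOK.join (RangeOK.of_check ck552) (RangeOK.of_check ck553) (Eq.refl 7369)) (RangeOK.join (RangeOK.of_check ck554) (RangeOK.of_check ck555) (Eq.refl 7406)) (Eq.refl 7388)) (RangeOK.join (RangeOK.join (RangeOK.of_check ck556) (RangeOK.of_check ck557) (Eq.refl 7432)) (RangeOK.join (RangeOK.of_check ck558) (RangeOK.of_check ck559) (Eq.refl 7455)) (Eq.refl 7448)) (Eq.refl 7424)) (Eq.refl 7351)) (RangeOK.join (RangeOK.join (RangeOK.join (RangeOK.join (RangeOK.of_check ck560) (RangeOK.of_check ck561) (Eq.refl 7473)) (RangeOK.join (RangeOK.of_check ck562) (RangeOK.of_check ck563) (Eq.refl 7507)) (Eq.refl 7491)) (RangeOK.join (RangeOK.join (RangeOK.of_check ck564) (RangeOK.of_check ck565) (Eq.refl 7543)) (RangeOK.join (RangeOK.of_check ck566) (RangeOK.of_check ck567) (Eq.refl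 7582)) (Eq.refl 7563)) (Eq.refl 7525)) (RangeOK.join (RangeOK.join (RangeOK.join (RangeOK.of_check ck568) (RangeOK.of_check ck569) (Eq.refl 7624)) (RangeOK.join (RangeOK.of_check ck570) (RangeOK.of_check ck571) (Eq.refl 7664)) (Eq.refl 7643)) (RangeOK.join (RangeOK.join (RangeOK.of_check ck572) (RangeOK.of_check ck573) (Eq.refl 7700)) (RangeOK.join (RangeOK.of_check ck574) (RangeOK.of_check ck575) (Eq.refl 7714)) (Eq.refl 7711)) (Eq.refl 7685)) (Eq.refl 7603)) (Eq.refl 7459)) (Eq.refl 7248)

end Vale.Agent.Snaky.P1
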