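import Vale.Agent.Snaky.P1.Tbl


namespace Vale.Agent.Snaky.P1

theorem ck576 : checkRange tbl 7718 4 = 0 := by decide +kernel
theorem ck577 : checkRange tbl 7722 5 = 0 := by decide +kernel
theorem ck578 : checkRange tbl 7727 15 = 0 := by decide +kernel
theorem ck579 : checkRange tbl 7742 10 = 0 := by decide +kernel
theorem ck580 : checkRange tbl 7752 9 = 0 := by decide +kernel
theorem ck581 : checkRange tbl 7761 8 = 0 := by decide +kernel
theorem ck582 : checkRange tbl 7769 6 = 0 := by decide +kernel
theorem ck583 : checkRange tbl 7775 8 = 0 := by decide +kernel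
theorem ck584 : checkRange tbl 7783 3 = 0 := by decide +kernel
theorem ck585 : checkRange tbl 7786 11 = 0 := by decide +kernel
theorem ck586 : checkRange tbl 7797 21 = 0 := by decide +kernel
theorem ck587 : checkRange tbl 7818 18 = 0 := by decide +kernel
theorem ck588 : checkRange tbl 7836 17 = 0 := by decide +kernel
theorem ck589 : checkRange tbl 7853 19 = 0 := by decide +kernel
theorem ck590 : checkRange tbl 7872 21 = 0 := by decide +kernel
theorem ck591 : checkRange tbl 7893 10 = 0 := by decide +kernel
theorem ck592 : checkRange tbl 7903 5 = 0 := by decide +kernel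
theorem ck593 : checkRange tbl 7908 13 = 0 := by decide +kernel
theorem ck594 : checkRange tbl 7921 7 = 0 := by decide +kernel
theorem ck595 : checkRange tbl 7928 15 = 0 := by decide +kernel
theorem ck596 : checkRange tbl 7943 16 = 0 := by decide +kernel
theorem ck597 : checkRange tbl 7959 11 = 0 := by decide +kernel
theorem ck598 : checkRange tbl 7970 14 = 0 := by decide +kernel
theorem ck599 : checkRange tbl 7984 19 = 0 := by decide +kernel
theorem ck600 : checkRange tbl 8003 15 = 0 := by decide +kernel
theorem ck601 : checkRange tbl 8018 20 = 0 := by decide +kernel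
theorem ck602 : checkRange tbl 8038 18 = 0 := by decide +kernel
theorem ck603 : checkRange tbl 8056 16 = 0 := by decide +kernel
theorem ck604 : checkRange tbl 8072 20 = 0 := by decide +kernel
theorem ck605 : checkRange tbl 8092 20 = 0 := by decide +kernel
theorem ck606 : checkRange tbl 8112 19 = 0 := by decide +kernel
theorem ck607 : checkRange tbl 8131 17 = 0 := by decide +kernel
theorem ck608 : checkRange tbl 8148 15 = 0 := by decide +kernel
theorem ck609 : checkRange tbl 8163 22 = 0 := by decide +kernel
theorem ck610 : checkRange tbl 8185 22 = 0 := by decide +kernel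
theorem ck611 : checkRange tbl 8207 20 = 0 := by decide +kernel
theorem ck612 : checkRange tbl 8227 19 = 0 := by decide +kernel
theorem ck613 : checkRange tbl 8246 18 = 0 := by decide +kernel
theorem ck614 : checkRange tbl 8264 18 = 0 := by decide +kernel
theorem ck615 : checkRange tbl 8282 14 = 0 := by decide +kernel
theorem ck616 : checkRange tbl 8296 17 = 0 := by decide +kernel
theorem ck617 : checkRange tbl 8313 18 = 0 := by decide +kernel
theorem ck618 : checkRange tbl 8331 15 = 0 := by decide +kernel
theorem ck619 : checkRange tbl 8346 9 = 0 := by decide +kernel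
theorem ck620 : checkRange tbl 8355 3 = 0 := by decide +kernel
theorem ck621 : checkRange tbl 8358 4 = 0 := by decide +kernel
theorem ck622 : checkRange tbl 8362 6 = 0 := by decide +kernel
theorem ck623 : checkRange tbl 8368 7 = 0 := by decide +kernel
theorem ck624 : checkRange tbl 8375 8 = 0 := by decide +kernel
theorem ck625 : checkRange tbl 8383 16 = 0 := by decide +kernel
theorem ck626 : checkRange tbl 8399 6 = 0 := by decide +kernel
theorem ck627 : checkRange tbl 8405 6 = 0 := by decide +kernel
theorem ck628 : checkRange tbl 8411 10 = 0 := by decide +kernel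
theorem ck629 : checkRange tbl 8421 7 = 0 := by decide +kernel
theorem ck630 : checkRange tbl 8428 13 = 0 := by decide +kernel
theorem ck631 : checkRange tbl 8441 12 = 0 := by decide +kernel
theorem ck632 : checkRange tbl 8453 6 = 0 := by decide +kernel
theorem ck633 : checkRange tbl 8459 5 = 0 := by decide +kernel
theorem ck634 : checkRange tbl 8464 4 = 0 := by decide +kernel
theorem ck635 : checkRange tbl 8468 5 = 0 := by decide +kernel
theorem ck636 : checkRange tbl 8473 5 = 0 := by decide +kernel
theorem ck637 : checkRange tbl 8478 6 = 0 := by decide +kernel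
theorem ck638 : checkRange tbl 8484 21 = 0 := by decide +kernel
theorem ck639 : checkRange tbl 8505 18 = 0 := by decide +kernel

theorem rng9 : RangeOK tbl 7718 805 := RangeOK.join (RangeOK.join (RangeOK.join (RangeOK.join (RangeOK.join (RangeOK.join (RangeOK.of_check ck576) (RangeOK.of_check ck577) (Eq.refl 7722)) (RangeOK.join (RangeOK.of_check ck578) (RangeOK.of_check ck579) (Eq.refl 7742)) (Eq.refl 7727)) (RangeOK.join (RangeOK.join (RangeOK.of_check ck580) (RangeOK.of_check ck581) (Eq.refl 7761)) (RangeOK.join (RangeOK.of_check ck582) (RangeOK.of_check ck583) (Eq.refl 7775)) (Eq.refl 7769)) (Eq.refl 7752)) (RangeOK.join (RangeOK.join (RangeOK.join (RangeOK.of_check ck584) (RangeOK.of_check ck585) (Eq.refl 7786)) (RangeOK.join (RangeOK.of_check ck586) (RangeOK.of_check ck587) (Eq.refl 7818)) (Eq.refl 7797)) (RangeOK.join (RangeOK.join (RangeOK.of_check ck588) (RangeOK.of_check ck589) (Eq.refl 7853)) (RangeOK.join (RangeOK.of_check ck590) (RangeOK.of_check ck591) (Eq.refl 7893)) (Eq.refl 7872)) (Eq.refl 7836)) (Eq.refl 7783)) (RangeOK.join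 (RangeOK.join (RangeOK.join (RangeOK.join (RangeOK.of_check ck592) (RangeOK.of_check ck593) (Eq.refl 7908)) (RangeOK.join (RangeOK.of_check ck594) (RangeOK.of_check ck595) (Eq.refl 7928)) (Eq.refl 7921)) (RangeOK.join (RangeOK.join (RangeOK.of_check ck596) (RangeOK.of_check ck597) (Eq.refl 7959)) (RangeOK.join (RangeOK.of_check ck598) (RangeOK.of_check ck599) (Eq.refl 7984)) (Eq.refl 7970)) (Eq.refl 7943)) (RangeOK.join (RangeOK.join (RangeOK.join (RangeOK.of_check ck600) (RangeOK.of_check ck601) (Eq.refl 8018)) (RangeOK.join (RangeOK.of_check ck602) (RangeOK.of_check ck603) (Eq.refl 8056)) (Eq.refl 8038)) (RangeOK.join (RangeOK.join (RangeOK.of_check ck604) (RangeOK.of_check ck605) (Eq.refl 8092)) (RangeOK.join (RangeOK.of_check ck606) (RangeOK.of_check ck607) (Eq.refl 8131)) (Eq.refl 8112)) (Eq.refl 8072)) (Eq.refl 8003)) (Eq.refl 7903)) (RangeOK.join (RangeOK.join (RangeOK.join (RangeOK.join (RangeOK.join (RangeOK.of_check ck608) (RangeOK.of_check ck609) (Eq.refl 8163)) (RangeOK.join (RangeOK.of_check ck610) (RangeOK.of_check ck611)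 (Eq.refl 8207)) (Eq.refl 8185)) (RangeOK.join (RangeOK.join (RangeOK.of_check ck612) (RangeOK.of_check ck613) (Eq.refl 8246)) (RangeOK.join (RangeOK.of_check ck614) (RangeOK.of_check ck615) (Eq.refl 8282)) (Eq.refl 8264)) (Eq.refl 8227)) (RangeOK.join (RangeOK.join (RangeOK.join (RangeOK.of_check ck616) (RangeOK.of_check ck617) (Eq.refl 8313)) (RangeOK.join (RangeOK.of_check ck618) (RangeOK.of_check ck619) (Eq.refl 8346)) (Eq.refl 8331)) (RangeOK.join (RangeOK.join (RangeOK.of_check ck620) (RangeOK.of_check ck621) (Eq.refl 8358)) (RangeOK.join (RangeOK.of_check ck622) (RangeOK.of_check ck623) (Eq.refl 8368)) (Eq.refl 8362)) (Eq.refl 8355)) (Eq.refl 8296)) (RangeOK.join (RangeOK.join (RangeOK.join (RangeOK.join (RangeOK.of_check ck624) (RangeOK.of_check ck625) (Eq.refl 8383)) (RangeOK.join (RangeOK.of_check ck626) (RangeOK.of_check ck627) (Eq.refl 8405)) (Eq.refl 8399)) (RangeOK.join (RangeOK.join (RangeOK.of_check ck628) (RangeOK.of_check ck629) (Eq.refl 8421)) (RangeOK.join (RangeOK.of_check ck630) (RangeOK.of_check ck631) (Eq.refl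 8441)) (Eq.refl 8428)) (Eq.refl 8411)) (RangeOK.join (RangeOK.join (RangeOK.join (RangeOK.of_check ck632) (RangeOK.of_check ck633) (Eq.refl 8459)) (RangeOK.join (RangeOK.of_check ck634) (RangeOK.of_check ck635) (Eq.refl 8468)) (Eq.refl 8464)) (RangeOK.join (RangeOK.join (RangeOK.of_check ck636) (RangeOK.of_check ck637) (Eq.refl 8478)) (RangeOK.join (RangeOK.of_check ck638) (RangeOK.of_check ck639) (Eq.refl 8505)) (Eq.refl 8484)) (Eq.refl 8473)) (Eq.refl 8453)) (Eq.refl 8375)) (Eq.refl 8148)

end Vale.Agent.Snaky.P1
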